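import Crest.Agent.N207.J.Sph5

-- ▼ part N207/J/Re1
section

/-! # N207/J/Re1 (helper72): polar coordinates; Cartesian gradient of `u (log ‖x‖) (x/‖x‖)` -/

set_option autoImplicit false
set_option maxHeartbeats 400000
open MeasureTheory Metric Topology Filter Asymptotics
open Crest.Agent.R246.Zon797
open scoped InnerProductSpace

noncomputable section

namespace Crest.Agent.N207.J

/-- basis vectors -/
abbrev ee (i : Fin 4) : E4 := EuclideanSpace.single i 1

open Classical in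
/-- radial projection -/
def prj (x : E4) : S3 :=
  if h : x = 0 then ⟨ee 0, by simp⟩ else ⟨‖x‖⁻¹ • x, by simp [norm_smul, h]⟩

theorem prj_coe {x : E4} (hx : x ≠ 0) : (prj x : E4) = ‖x‖⁻¹ • x := by simp [prj, hx]

theorem S3_norm (ω : S3) : ‖(ω : E4)‖ = 1 := by simp

theorem S3_ne (ω : S3) : (ω : E4) ≠ 0 := fun h => by simpa [h] using S3_norm ω

theorem norm_smul_S3 {r : ℝ} (hr : 0 < r) (ω : S3) : ‖r • (ω : E4)‖ = r := by
  rw [norm_smul, S3_norm, mul_one, Real.norm_of_nonneg hr.le]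

theorem smul_S3_ne {r : ℝ} (hr : 0 < r) (ω : S3) : r • (ω : E4) ≠ 0 :=
  smul_ne_zero hr.ne' (S3_ne ω)

theorem prj_smul_S3 {r : ℝ} (hr : 0 < r) (ω : S3) : prj (r • (ω : E4)) = ω :=
  Subtype.ext (by rw [prj_coe (smul_S3_ne hr ω), norm_smul_S3 hr, inv_smul_smul₀ hr.ne'])

theorem prj_S3 (ω : S3) : prj (ω : E4) = ω := by simpa using prj_smul_S3 one_pos ω

theorem norm_smul_prj {x : E4} (hx : x ≠ 0) : ‖x‖ • (prj x : E4) = x := by
  rw [prj_coe hx, smul_inv_smul₀ (norm_ne_zero_iff.2 hx)]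

theorem exp_log_smul_prj {x : E4} (hx : x ≠ 0) : Real.exp (Real.log ‖x‖) • (prj x : E4) = x := by
  rw [Real.exp_log (norm_pos_iff.2 hx), norm_smul_prj hx]

theorem prj_smul {r : ℝ} (hr : 0 < r) {x : E4} (hx : x ≠ 0) : prj (r • x) = prj x := by
  conv_lhs => rw [← norm_smul_prj hx, smul_smul]
  exact prj_smul_S3 (mul_pos hr (norm_pos_iff.2 hx)) _

theorem continuousAt_prj {x : E4} (hx : x ≠ 0) : ContinuousAt prj x := by
  rw [Topology.IsInducing.subtypeVal.continuousAt_iff]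
  have h : ContinuousAt (fun y : E4 => ‖y‖⁻¹ • y) x :=
    (continuous_norm.continuousAt.inv₀ (norm_ne_zero_iff.2 hx)).smul continuousAt_id
  refine h.congr ?_
  filter_upwards [isOpen_ne.mem_nhds hx] with y hy
  exact (prj_coe hy).symm

theorem xc_prj {x : E4} (hx : x ≠ 0) (i : Fin 4) : xc i (prj x) = ((‖x‖⁻¹ * x i : ℝ) : ℂ) := by
  rw [xc_apply, prj_coe hx]; rfl

/-- coordinate covector -/
def dx (i : Fin 4) : E4 →L[ℝ] ℂ := Complex.ofRealCLM ∘L EuclideanSpace.proj i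

@[simp] theorem dx_apply (i : Fin 4) (h : E4) : dx i h = ((h i : ℝ) : ℂ) := rfl

/-- covector with given components -/
def cov (c : Fin 4 → ℂ) : E4 →L[ℝ] ℂ := ∑ i, c i • dx i

theorem cov_apply (c : Fin 4 → ℂ) (h : E4) : cov c h = ∑ i, c i * ((h i : ℝ) : ℂ) := by
  simp [cov]

theorem cov_ee (c : Fin 4 → ℂ) (j : Fin 4) : cov c (ee j) = c j := by
  rw [cov_apply, Finset.sum_eq_single j (fun b _ hb => by simp [hb]) (by simp)]
  simp

theorem eq_cov (L : E4 →L[ℝ] ℂ) : L = cov fun i => L (ee i) := by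
  ext h
  have e : h = ∑ j, h j • ee j := by ext l; simp [Pi.single_apply]
  rw [cov_apply]
  conv_lhs => rw [e]
  simp only [map_sum, map_smul, Complex.real_smul]
  exact Finset.sum_congr rfl fun i _ => mul_comm _ _

theorem clm_ext {L L' : E4 →L[ℝ] ℂ} (h : ∀ i, L (ee i) = L' (ee i)) : L = L' := by
  rw [eq_cov L, eq_cov L']; congr 1; exact funext h

theorem norm_dx_le (i : Fin 4) : ‖dx i‖ ≤ 1 :=
  ContinuousLinearMap.opNorm_le_bound _ zero_le_one fun h => by
    simpa using PiLp.norm_apply_le h i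

theorem norm_cov_le (c : Fin 4 → ℂ) : ‖cov c‖ ≤ ∑ i, ‖c i‖ :=
  norm_sum_le_of_le _ fun i _ => by
    rw [norm_smul]; exact mul_le_of_le_one_right (norm_nonneg _) (norm_dx_le i)

theorem cov_sub (c d : Fin 4 → ℂ) : cov c - cov d = cov fun i => c i - d i :=
  clm_ext fun i => by simp [cov_ee]

theorem hasFDerivAt_logn {x : E4} (hx : x ≠ 0) :
    HasFDerivAt (fun y : E4 => Real.log ‖y‖) ((‖x‖ ^ 2)⁻¹ • innerSL ℝ x) x := by
  have h := ((hasStrictFDerivAt_norm_sq x).hasFDerivAt.log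
    (pow_ne_zero 2 (norm_ne_zero_iff.2 hx))).const_mul (1 / 2 : ℝ)
  have e : (fun y : E4 => 1 / 2 * Real.log (‖y‖ ^ 2)) = fun y => Real.log ‖y‖ := by
    funext y; rw [Real.log_pow]; push_cast; ring
  rw [e] at h
  refine h.congr_fderiv ?_
  ext v; simp; ring

theorem hasFDerivAt_invn {x : E4} (hx : x ≠ 0) :
    HasFDerivAt (fun y : E4 => ‖y‖⁻¹) (-(‖x‖ ^ 3)⁻¹ • innerSL ℝ x) x := by
  have h := (hasFDerivAt_logn hx).neg.exp
  have hn := norm_pos_iff.2 hx
  refine (h.congr_of_eventuallyEq ?_).congr_fderiv ?_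
  · filter_upwards [isOpen_ne.mem_nhds hx] with y hy
    simp [Real.exp_neg, Real.exp_log (norm_pos_iff.2 hy)]
  · ext v
    simp [Real.exp_neg, Real.exp_log hn]
    field_simp

@[simp] theorem inner_ee (x : E4) (i : Fin 4) : inner ℝ x (ee i) = x i := by
  rw [EuclideanSpace.inner_single_right]; simp

/-- `g` is the tangential gradient of `u` -/
def HG (u : CS) (g : Fin 4 → CS) : Prop :=
  ∀ x : E4, x ≠ 0 →
    HasFDerivAt (fun y => u (prj y)) (cov fun i => ((‖x‖⁻¹ : ℝ) : ℂ) * g i (prj x)) x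

theorem HG.const (c : ℂ) : HG (c • 1) 0 := fun x _ => by
  have : (cov fun i => ((‖x‖⁻¹ : ℝ) : ℂ) * (0 : Fin 4 → CS) i (prj x)) = 0 :=
    clm_ext fun i => by simp [cov_ee]
  rw [this]
  exact hasFDerivAt_const (c • (1 : ℂ)) x

theorem HG.add {u v : CS} {g h : Fin 4 → CS} (hu : HG u g) (hv : HG v h) :
    HG (u + v) (fun i => g i + h i) := fun x hx =>
  ((hu x hx).add (hv x hx)).congr_fderiv (clm_ext fun i => by simp [cov_ee, mul_add])

theorem HG.smul {u : CS} {g : Fin 4 → CS} (c : ℂ) (hu : HG u g) :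
    HG (c • u) (fun i => c • g i) := fun x hx =>
  ((hu x hx).const_mul c).congr_fderiv (clm_ext fun i => by simp [cov_ee]; ring)

theorem HG.mul {u v : CS} {g h : Fin 4 → CS} (hu : HG u g) (hv : HG v h) :
    HG (u * v) (fun i => g i * v + u * h i) := fun x hx =>
  ((hu x hx).mul (hv x hx)).congr_fderiv (clm_ext fun i => by simp [cov_ee]; ring)

theorem HG.xc (l : Fin 4) : HG (xc l) (fun i => (if i = l then 1 else 0) - xc i * xc l) := by
  intro x hx
  have h := ((hasFDerivAt_invn hx).mul (EuclideanSpace.proj (𝕜 := ℝ) l).hasFDerivAt)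
  have h2 := Complex.ofRealCLM.hasFDerivAt.comp x h
  have hn : ((‖x‖ : ℝ) : ℂ) ≠ 0 := by exact_mod_cast norm_ne_zero_iff.2 hx
  refine (h2.congr_of_eventuallyEq ?_).congr_fderiv (clm_ext fun i => ?_)
  · filter_upwards [isOpen_ne.mem_nhds hx] with y hy
    rw [xc_prj hy]; rfl
  · rw [cov_ee]
    simp only [ContinuousMap.sub_apply, ContinuousMap.mul_apply, xc_prj hx]
    by_cases hi : i = l
    · subst hi; simp; field_simp; ring
    · simp [hi, Ne.symm hi]; field_simp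

theorem HG.tendsto {ι : Type*} {l : Filter ι} [NeBot l] {u : ι → CS} {g : ι → Fin 4 → CS}
    {v : CS} {h : Fin 4 → CS} (hu : Tendsto u l (𝓝 v))
    (hg : ∀ i, Tendsto (fun n => g n i) l (𝓝 (h i))) (H : ∀ n, HG (u n) (g n)) : HG v h := by
  intro x hx
  have hn := norm_pos_iff.2 hx
  have hs : IsOpen {y : E4 | ‖x‖ / 2 < ‖y‖} := isOpen_lt continuous_const continuous_norm
  have hne : ∀ y : E4, ‖x‖ / 2 < ‖y‖ → y ≠ 0 := fun y hy =>
    norm_pos_iff.1 (lt_trans (by positivity) hy)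
  refine hasFDerivAt_of_tendstoUniformlyOn (l := l) hs
    (f := fun n y => u n (prj y)) (g := fun y => v (prj y))
    (f' := fun n y => cov fun i => ((‖y‖⁻¹ : ℝ) : ℂ) * g n i (prj y))
    (g' := fun y => cov fun i => ((‖y‖⁻¹ : ℝ) : ℂ) * h i (prj y)) ?_
    (fun n y hy => H n y (hne y hy))
    (fun y _ => (ContinuousMap.tendsto_iff_tendstoUniformly.1 hu).tendsto_at _)
    (show ‖x‖ / 2 < ‖x‖ by linarith)
  have h0 : Tendsto (fun n => ∑ i, (‖x‖ / 2)⁻¹ * ‖h i - g n i‖) l (𝓝 0) := by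
    have := tendsto_finsetSum Finset.univ fun i _ =>
      (((tendsto_const_nhds (x := h i)).sub (hg i)).norm).const_mul (‖x‖ / 2)⁻¹
    simpa using this
  rw [Metric.tendstoUniformlyOn_iff]
  intro ε hε
  filter_upwards [h0.eventually (gt_mem_nhds hε)] with n hn' y hy
  rw [dist_eq_norm, cov_sub]
  refine lt_of_le_of_lt ((norm_cov_le _).trans (Finset.sum_le_sum fun i _ => ?_)) hn'
  rw [← mul_sub, norm_mul, Complex.norm_real, Real.norm_of_nonneg (by positivity)]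
  exact mul_le_mul (inv_anti₀ (by positivity) (le_of_lt hy)) ((h i - g n i).norm_coe_le_norm _)
    (norm_nonneg _) (by positivity)

/-- tangential gradient from the rotation derivatives -/
def gr (u : CS) (i : Fin 4) : CS := ∑ a, rx a i * R a u

theorem HG_of_mem_V {k : ℕ} {u : CS} (hu : u ∈ V k) : HG u (gr u) := by
  refine V_ind (p := fun _ u => HG u (gr u)) ?_ ?_ ?_ ?_ ?_ ?_ k u hu
  · have := HG.const 1
    convert this using 1
    · ext x; simp
    · funext i; simp [gr, R_one]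
  · intro _
    have := HG.const 0
    convert this using 1
    · ext x; simp
    · funext i; simp [gr, R_zero]
  · intro j u w hu hw h1 h2
    convert h1.add h2 using 1
    funext i
    simp only [gr, R_add _ hu hw, mul_add, Finset.sum_add_distrib]
  · intro j c u hu h
    convert h.smul c using 1
    funext i
    simp only [gr, R_smul _ c hu, mul_smul_comm, Finset.smul_sum]
  · intro j u _ h; exact h
  · intro j l u hu h
    convert (HG.xc l).mul h using 1
    funext i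
    rw [← gam_xc, gr, gr, Finset.sum_mul, Finset.mul_sum, ← Finset.sum_add_distrib]
    refine Finset.sum_congr rfl fun a _ => ?_
    rw [R_mul a (xc_mem l) hu, R_xc]; ring

theorem Sb.HG {n : ℕ} {u : CS} (hu : Sb (n + 3) u) : HG u (gr u) := by
  refine HG.tendsto (hu.hasSum (n := n + 1))
    (g := fun s i => ∑ a, rx a i * ∑ k ∈ s, J.R a (Pc k (toH u))) (fun i => ?_) fun s => ?_
  · exact tendsto_finsetSum _ fun a _ => Tendsto.const_mul _ (hu.HR_aux a).2
  · obtain ⟨N, hN⟩ := s.exists_nat_subset_range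
    have hV : ∑ k ∈ s, Pc k (toH u) ∈ V N := Submodule.sum_mem _ fun k hk =>
      V_mono (Finset.mem_range.1 (hN hk)).le (Pc_memV k _)
    convert HG_of_mem_V hV using 1
    funext i
    refine Finset.sum_congr rfl fun a _ => ?_
    rw [(HR.sum fun k _ => HR_R a (Pc_memV k (toH u))).R_eq]

/-- the rotation vector field -/
def Xv (a : Pr 4) : E4 →L[ℝ] E4 :=
  (EuclideanSpace.proj a.1.1 : E4 →L[ℝ] ℝ).smulRight (ee a.1.2) -
    (EuclideanSpace.proj a.1.2 : E4 →L[ℝ] ℝ).smulRight (ee a.1.1)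

theorem Xv_coord (a : Pr 4) (ω : S3) (i : Fin 4) : ((Xv a (ω : E4) i : ℝ) : ℂ) = rx a i ω := by
  have := a.ne
  unfold Xv rx
  split_ifs with h1 h2
  · subst h1; simp [this]
  · subst h2; simp [h1]
  · simp [h1, h2]

theorem hasDerivAt_rot (a : Pr 4) (x : E4) :
    HasDerivAt (fun θ : ℝ => rotV a.1.1 a.1.2 θ x) (Xv a x) 0 := by
  have e : (fun θ : ℝ => rotV a.1.1 a.1.2 θ x) = fun θ => x + (Real.cos θ - 1) •
      (x a.1.1 • ee a.1.1 + x a.1.2 • ee a.1.2) + Real.sin θ • Xv a x := by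
    funext θ
    have := a.ne
    ext k
    by_cases h1 : k = a.1.1
    · subst h1; simp [rotV_i, Xv, this]; ring
    · by_cases h2 : k = a.1.2
      · subst h2; simp [rotV_j this, Xv, h1]; ring
      · simp [rotV_ne h1 h2, Xv, h1, h2]
  rw [e]
  have h := (((Real.hasDerivAt_cos 0).sub_const 1).smul_const
    (x a.1.1 • ee a.1.1 + x a.1.2 • ee a.1.2)).const_add x |>.add
    ((Real.hasDerivAt_sin 0).smul_const (Xv a x))
  exact h.congr_deriv (by simp)

/-- chain rule along a rotation -/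
theorem hasDerivAt_comp_rot {F : Type*} [NormedAddCommGroup F] [NormedSpace ℝ F] {U : E4 → F}
    {L : E4 →L[ℝ] F} (a : Pr 4) {x : E4} (h : HasFDerivAt U L x) :
    HasDerivAt (fun θ : ℝ => U (rotV a.1.1 a.1.2 θ x)) (L (Xv a x)) 0 := by
  have h' : HasFDerivAt U L (rotV a.1.1 a.1.2 0 x) := by rwa [rotV_zero]
  exact h'.comp_hasDerivAt 0 (hasDerivAt_rot a x)

theorem HG.HR {u : CS} {g : Fin 4 → CS} (h : HG u g) (a : Pr 4) :
    HR a u (∑ i, rx a i * g i) := by
  intro ω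
  have h1 := hasDerivAt_comp_rot a (h ω (S3_ne ω))
  have e : (fun θ : ℝ => u (prj (rotV a.1.1 a.1.2 θ (ω : E4)))) = fun θ => u (rotS a θ ω) := by
    funext θ
    rw [← prj_S3 (rotS a θ ω), rotS_coe]
  rw [e] at h1
  refine h1.congr_deriv ?_
  rw [cov_apply]
  simp [Xv_coord, prj_S3, mul_comm]

theorem sum_xc_rx (a : Pr 4) : ∑ i, xc i * rx a i = 0 := by
  have h := (HR.sum (s := Finset.univ) fun i _ => (HR.xc a i).mul (HR.xc a i))
  rw [sum_xc_sq] at h
  have h2 := h.unique (HR.one a)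
  ext x
  have := congrArg (fun u : CS => u x) h2
  simp only [ContinuousMap.coe_sum, Finset.sum_apply, ContinuousMap.add_apply,
    ContinuousMap.mul_apply, ContinuousMap.zero_apply, mul_comm (rx a _ x), ← two_mul,
    ← Finset.mul_sum] at this ⊢
  exact (mul_eq_zero.1 this).resolve_left two_ne_zero

theorem sum_xc_gr (u : CS) : ∑ i, xc i * gr u i = 0 := by
  simp only [gr, Finset.mul_sum, ← mul_assoc]
  rw [Finset.sum_comm]
  simp only [← Finset.sum_mul, sum_xc_rx, zero_mul, Finset.sum_const_zero]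

/-! ### functions on annuli -/

/-- the function `x ↦ u (log ‖x‖) (x/‖x‖)` -/
def ann (u : ℝ → CS) (x : E4) : ℂ := u (Real.log ‖x‖) (prj x)

theorem ann_polar (u : ℝ → CS) (t : ℝ) (ω : S3) : ann u (Real.exp t • (ω : E4)) = u t ω := by
  rw [ann, norm_smul_S3 (Real.exp_pos t), Real.log_exp, prj_smul_S3 (Real.exp_pos t)]

theorem hasFDerivAt_ann {u : ℝ → CS} {u' : CS} {g : Fin 4 → CS} {x : E4} (hx : x ≠ 0)
    (hu : HasDerivAt u u' (Real.log ‖x‖)) (hg : HG (u (Real.log ‖x‖)) g) :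
    HasFDerivAt (ann u) (cov fun i => ((‖x‖⁻¹ : ℝ) : ℂ) * (xc i * u' + g i) (prj x)) x := by
  set t := Real.log ‖x‖ with ht
  have hl := hasFDerivAt_logn hx
  have h1 := hg x hx
  -- the frozen linear term
  have h2 : HasFDerivAt (fun y : E4 => (Real.log ‖y‖ - t) • u' (prj x))
      (((‖x‖ ^ 2)⁻¹ • innerSL ℝ x).smulRight (u' (prj x))) x :=
    (hl.sub_const t).smul_const _
  have hO : (fun y : E4 => Real.log ‖y‖ - t) =O[𝓝 x] fun y => y - x := hl.isBigO_sub
  have h3 : (fun y : E4 => (Real.log ‖y‖ - t) • (u' (prj y) - u' (prj x))) =o[𝓝 x]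
      fun y => y - x := by
    have c : Tendsto (fun y => u' (prj y) - u' (prj x)) (𝓝 x) (𝓝 0) := by
      have := (u'.continuous.continuousAt.comp (continuousAt_prj hx)).tendsto.sub_const
        (u' (prj x))
      simpa using this
    have := hO.norm_right.smul_isLittleO ((isLittleO_one_iff ℝ).2 c)
    simpa using this
  have h4 : (fun y : E4 => (u (Real.log ‖y‖) - u t - (Real.log ‖y‖ - t) • u') (prj y)) =o[𝓝 x]
      fun y => y - x := by
    have a1 := (hasDerivAt_iff_isLittleO.1 hu).comp_tendsto hl.continuousAt.tendsto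
    refine IsBigO.trans_isLittleO (IsBigO.of_bound 1 (Eventually.of_forall fun y => ?_))
      (a1.trans_isBigO hO)
    rw [one_mul]
    exact ContinuousMap.norm_coe_le_norm _ _
  have h5 : HasFDerivAt (fun y : E4 => (Real.log ‖y‖ - t) • (u' (prj y) - u' (prj x)) +
      (u (Real.log ‖y‖) - u t - (Real.log ‖y‖ - t) • u') (prj y)) (0 : E4 →L[ℝ] ℂ) x := by
    rw [hasFDerivAt_iff_isLittleO]
    simpa [← ht] using h3.add h4
  have hn : ((‖x‖ : ℝ) : ℂ) ≠ 0 := by exact_mod_cast norm_ne_zero_iff.2 hx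
  refine (((h1.add h2).add h5).congr_of_eventuallyEq
    (Eventually.of_forall fun y => ?_)).congr_fderiv (clm_ext fun i => ?_)
  · simp [ann]; ring
  · simp [cov_ee, prj_coe hx]; field_simp; ring

end Crest.Agent.N207.J
end
end

-- ▼ part N207/J/Re2
section

/-! # N207/J/Re2 (helper72): families with uniformly summable modes -/

set_option autoImplicit false
set_option maxHeartbeats 400000
open MeasureTheory Metric Topology Filter
open Crest.Agent.R246.Zon797
open scoped InnerProductSpace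

noncomputable section

namespace Crest.Agent.N207.J

theorem norm_P_mul_le {u v : CS} (hu : Sb 2 u) (hv : v ∈ V 1) (j : ℕ) :
    ‖P j (toH (v * u))‖ ≤
      ‖v‖ * (‖P (j - 1) (toH u)‖ + ‖P j (toH u)‖ + ‖P (j + 1) (toH u)‖) := by
  have h := ((hu.hasSum (n := 0)).mul_left v).mapL (P j ∘L toH)
  have hz : ∀ k, k ∉ ({j - 1, j, j + 1} : Finset ℕ) → (P j ∘L toH) (v * Pc k (toH u)) = 0 := by
    intro k hk
    simp only [Finset.mem_insert, Finset.mem_singleton, not_or] at hk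
    rcases lt_or_gt_of_ne hk.2.1 with h1 | h1
    · exact P_mul_zero_hi hv (Pc_memV k _) (by omega)
    · exact P_mul_zero_lo hv (Pc_mem k _) (by omega)
  have e := h.unique (hasSum_sum_of_ne_finset_zero hz)
  have b : ∀ k, ‖(P j ∘L toH) (v * Pc k (toH u))‖ ≤ ‖v‖ * ‖P k (toH u)‖ := fun k => by
    have := (norm_P_le j _).trans (norm_toH_mul v (Pc k (toH u)))
    rwa [toH_Pc] at this
  rw [show P j (toH (v * u)) = _ from e]
  refine (norm_sum_le_of_le _ fun k _ => b k).trans ?_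
  rw [← Finset.mul_sum]
  refine mul_le_mul_of_nonneg_left ?_ (norm_nonneg _)
  cases j with
  | zero => simp
  | succ j =>
    rw [Finset.sum_insert (by simp; omega), Finset.sum_insert (by simp), Finset.sum_singleton]
    linarith

variable {T : Type*}

/-- the modes of `u t`, `t ∈ I`, are dominated by a summable sequence of sum `≤ M` -/
def Ub (I : Set T) (n : ℕ) (M : ℝ) (u : T → CS) : Prop :=
  ∃ c : ℕ → ℝ, Summable c ∧ ∑' k, c k ≤ M ∧ (∀ k, 0 ≤ c k) ∧
    ∀ k : ℕ, ∀ t ∈ I, ((k : ℝ) + 1) ^ n * ‖P k (toH (u t))‖ ≤ c k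

variable {I : Set T} {n : ℕ} {M : ℝ} {u v : T → CS}

theorem Ub.nonneg (h : Ub I n M u) : 0 ≤ M := by
  obtain ⟨c, -, h2, h3, -⟩ := h
  exact (tsum_nonneg h3).trans h2

theorem Ub.sb (h : Ub I n M u) {t : T} (ht : t ∈ I) : Sb n (u t) := by
  obtain ⟨c, h1, -, -, h4⟩ := h
  exact Summable.of_nonneg_of_le (fun _ => by positivity) (fun k => h4 k t ht) h1

theorem Ub.mono (h : Ub I n M u) {m : ℕ} {M' : ℝ} {I' : Set T} (hm : m ≤ n) (hM : M ≤ M')
    (hI : I' ⊆ I) : Ub I' m M' u := by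
  obtain ⟨c, h1, h2, h3, h4⟩ := h
  refine ⟨c, h1, h2.trans hM, h3, fun k t ht => le_trans ?_ (h4 k t (hI ht))⟩
  exact mul_le_mul_of_nonneg_right
    (pow_le_pow_right₀ (by linarith [(Nat.cast_nonneg k : (0 : ℝ) ≤ k)]) hm) (norm_nonneg _)

theorem Ub.le (h : Ub I n M u) {m : ℕ} (hm : m ≤ n) : Ub I m M u := h.mono hm le_rfl subset_rfl

theorem Ub.congr (h : Ub I n M u) (e : ∀ t ∈ I, v t = u t) : Ub I n M v := by
  obtain ⟨c, h1, h2, h3, h4⟩ := h
  exact ⟨c, h1, h2, h3, fun k t ht => by rw [e t ht]; exact h4 k t ht⟩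

theorem Ub.add {M' : ℝ} (h : Ub I n M u) (h' : Ub I n M' v) :
    Ub I n (M + M') fun t => u t + v t := by
  obtain ⟨c, h1, h2, h3, h4⟩ := h
  obtain ⟨d, k1, k2, k3, k4⟩ := h'
  refine ⟨fun k => c k + d k, h1.add k1, by rw [h1.tsum_add k1]; linarith,
    fun k => add_nonneg (h3 k) (k3 k), fun k t ht => ?_⟩
  rw [map_add, map_add]
  refine (mul_le_mul_of_nonneg_left (norm_add_le _ _) (by positivity)).trans ?_
  rw [mul_add]
  exact add_le_add (h4 k t ht) (k4 k t ht)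

theorem Ub.smul (h : Ub I n M u) (a : ℂ) : Ub I n (‖a‖ * M) fun t => a • u t := by
  obtain ⟨c, h1, h2, h3, h4⟩ := h
  refine ⟨fun k => ‖a‖ * c k, h1.mul_left _, ?_, fun k => mul_nonneg (norm_nonneg _) (h3 k),
    fun k t ht => ?_⟩
  · rw [tsum_mul_left]; exact mul_le_mul_of_nonneg_left h2 (norm_nonneg _)
  · rw [map_smul, map_smul, norm_smul, mul_left_comm]
    exact mul_le_mul_of_nonneg_left (h4 k t ht) (norm_nonneg _)

theorem Ub.zero (I : Set T) (n : ℕ) : Ub I n 0 fun _ => 0 :=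
  ⟨fun _ => 0, summable_zero, by simp, fun _ => le_rfl, fun k t _ => by simp⟩

theorem Ub.sum {ι : Type*} (s : Finset ι) {u : ι → T → CS} (h : ∀ i ∈ s, Ub I n M (u i)) :
    Ub I n (s.card * M) fun t => ∑ i ∈ s, u i t := by
  classical
  induction s using Finset.induction_on with
  | empty => simpa using Ub.zero I n
  | insert i s hi ih =>
    have := (h i (Finset.mem_insert_self _ _)).add
      (ih fun j hj => h j (Finset.mem_insert_of_mem hj))
    simp only [Finset.sum_insert hi, Finset.card_insert_of_notMem hi]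
    exact this.mono le_rfl (le_of_eq (by push_cast; ring)) subset_rfl

theorem Ub.norm_le (h : Ub I (n + 2) M u) {t : T} (ht : t ∈ I) : ‖u t‖ ≤ M := by
  have hs := (h.sb ht).hasSum
  obtain ⟨c, h1, h2, -, h4⟩ := h.le (m := 2) (by omega)
  exact (hs.norm_le_of_bounded h1.hasSum fun k => (norm_Pc_le k _).trans (h4 k t ht)).trans h2

theorem Ub.R (h : Ub I (n + 3) M u) (a : Pr 4) : Ub I (n + 2) M fun t => R a (u t) := by
  have hs := fun t ht => ((h.sb (t := t) ht).HR a).norm_P_le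
  obtain ⟨c, h1, h2, h3, h4⟩ := h
  refine ⟨c, h1, h2, h3, fun k t ht => le_trans ?_ (h4 k t ht)⟩
  rw [pow_succ _ (n + 2), mul_assoc]
  exact mul_le_mul_of_nonneg_left (hs t ht k) (by positivity)

theorem Ub.mul (h : Ub I (n + 2) M u) {w : CS} (hw : w ∈ V 1) (hw1 : ‖w‖ ≤ 1) :
    Ub I (n + 2) (2 ^ (n + 4) * M) fun t => w * u t := by
  have hs := fun t ht => norm_P_mul_le ((h.sb (t := t) ht).mono (m := 2) (by omega)) hw
  obtain ⟨c, h1, h2, h3, h4⟩ := h
  have s1 : Summable fun k => c (k - 1) := (summable_nat_add_iff 1).1 (by simpa using h1)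
  have s2 : Summable fun k => c (k + 1) := (summable_nat_add_iff 1).2 h1
  have e1 : ∑' k, c (k - 1) = c 0 + ∑' k, c k := by rw [s1.tsum_eq_zero_add]; simp
  have e2 : ∑' k, c k = c 0 + ∑' k, c (k + 1) := h1.tsum_eq_zero_add
  refine ⟨fun k => 2 ^ (n + 2) * (c (k - 1) + c k + c (k + 1)), ((s1.add h1).add s2).mul_left _,
    ?_, fun k => by have := h3 (k - 1); have := h3 k; have := h3 (k + 1); positivity,
    fun k t ht => ?_⟩
  · rw [tsum_mul_left, (s1.add h1).tsum_add s2, s1.tsum_add h1, pow_add 2 n 4,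
      pow_add 2 n 2, mul_assoc, mul_assoc]
    refine mul_le_mul_of_nonneg_left ?_ (by positivity)
    have := h3 0
    have : 0 ≤ ∑' k, c k := tsum_nonneg h3
    linarith
  · have key : ∀ l : ℕ, k ≤ l + 1 →
        ((k : ℝ) + 1) ^ (n + 2) * ‖P l (toH (u t))‖ ≤ 2 ^ (n + 2) * c l := by
      intro l hl
      refine le_trans ?_ (mul_le_mul_of_nonneg_left (h4 l t ht) (by positivity))
      rw [← mul_assoc, ← mul_pow]
      refine mul_le_mul_of_nonneg_right (pow_le_pow_left₀ (by positivity) ?_ _) (norm_nonneg _)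
      have : (k : ℝ) ≤ l + 1 := by exact_mod_cast hl
      linarith [(Nat.cast_nonneg l : (0 : ℝ) ≤ l)]
    have := (hs t ht k).trans (mul_le_of_le_one_left (by positivity) hw1)
    refine (mul_le_mul_of_nonneg_left this (by positivity)).trans ?_
    simp only [mul_add]
    exact add_le_add (add_le_add (key _ (by omega)) (key _ (by omega))) (key _ (by omega))

theorem Ub.gr (h : Ub I (n + 3) M u) (i : Fin 4) :
    Ub I (n + 2) (6 * (2 ^ (n + 4) * M)) fun t => gr (u t) i := by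
  have := Ub.sum (Finset.univ : Finset (Pr 4)) fun a _ =>
    (h.R a).mul (rx_mem a i) (norm_rx_le a i)
  have e : (Finset.univ : Finset (Pr 4)).card = 6 := by decide
  rw [e] at this
  exact_mod_cast this

theorem Ub.unif (h : Ub I (n + 2) M u) :
    TendstoUniformlyOn (fun (s : Finset ℕ) t => ∑ k ∈ s, Pc k (toH (u t))) u atTop I := by
  have hs := fun t ht => (h.sb (t := t) ht).hasSum
  obtain ⟨c, h1, -, -, h4⟩ := h.le (m := 2) (by omega)
  exact (tendstoUniformlyOn_tsum h1 fun k t ht =>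
    (norm_Pc_le k _).trans (h4 k t ht)).congr_right fun t ht => (hs t ht).tsum_eq

theorem Ub.continuousOn [TopologicalSpace T] (h : Ub I (n + 2) M u)
    (hc : ∀ k, ContinuousOn (fun t => P k (toH (u t))) I) : ContinuousOn u I := by
  refine h.unif.continuousOn (Frequently.of_forall fun s => continuousOn_finsetSum _ fun k _ => ?_)
  have := (Pc k).continuous.comp_continuousOn (hc k)
  exact this.congr fun t _ => (Pc_P k _).symm

theorem Ub.continuousOn_R [TopologicalSpace T] (h : Ub I (n + 3) M u) (hc : ContinuousOn u I)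
    (a : Pr 4) : ContinuousOn (fun t => J.R a (u t)) I := by
  refine (h.R a).continuousOn fun k => ?_
  refine ((Rk a k ∘L toH).continuous.comp_continuousOn hc).congr fun t ht => ?_
  rw [← toH_Pc, ((h.sb ht).HR a).Pc]; rfl

/-- synthesis of a family of harmonics -/
theorem Ub.of_modes {f : ℕ → T → CS} (hf : ∀ k, ∀ t ∈ I, f k t ∈ E k) {c : ℕ → ℝ}
    (h1 : Summable c) (h2 : ∑' k, c k ≤ M) (h3 : ∀ k, 0 ≤ c k)
    (h4 : ∀ k : ℕ, ∀ t ∈ I, ((k : ℝ) + 1) ^ n * ‖toH (f k t)‖ ≤ c k)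
    (hu : ∀ t ∈ I, HasSum (fun k => f k t) (u t)) : Ub I n M u :=
  ⟨c, h1, h2, h3, fun k t ht => by
    rw [← toH_Pc, Pc_of_hasSum (fun k => hf k t ht) (hu t ht)]; exact h4 k t ht⟩


section deriv
variable {𝕜 : Type*} [RCLike 𝕜] [NormedAlgebra 𝕜 ℂ] {I : Set 𝕜} {u u' : 𝕜 → CS} {M' : ℝ} {n' : ℕ}

theorem Ub.hasDerivAt (hI : IsOpen I) (h : Ub I (n + 2) M u) (h' : Ub I (n' + 2) M' u')
    (hd : ∀ k, ∀ t ∈ I, HasDerivAt (fun t => Pc k (toH (u t))) (Pc k (toH (u' t))) t)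
    {t : 𝕜} (ht : t ∈ I) : HasDerivAt u (u' t) t :=
  hasDerivAt_of_tendstoUniformlyOn hI h'.unif
    (Eventually.of_forall fun _ t ht => HasDerivAt.fun_sum fun k _ => hd k t ht)
    (fun _ ht => (h.sb ht).hasSum) ht

end deriv

section real
variable {I : Set ℝ} {u u' : ℝ → CS} {M' : ℝ} {n' : ℕ}

theorem Ub.hasDerivAt' (hI : IsOpen I) (h : Ub I (n + 2) M u) (h' : Ub I (n' + 2) M' u')
    (hd : ∀ k, ∀ t ∈ I, HasDerivAt (fun t => P k (toH (u t))) (P k (toH (u' t))) t)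
    {t : ℝ} (ht : t ∈ I) : HasDerivAt u (u' t) t :=
  h.hasDerivAt hI h' (fun k t ht => by
    have := ((Pc k).restrictScalars ℝ).hasFDerivAt.comp_hasDerivAt t (hd k t ht)
    simpa only [Function.comp_def, ContinuousLinearMap.coe_restrictScalars', Pc_P] using this) ht

theorem Ub.hasDerivAt_R (hI : IsOpen I) (h : Ub I (n + 3) M u) (h' : Ub I (n' + 3) M' u')
    (hd : ∀ t ∈ I, HasDerivAt u (u' t) t) (a : Pr 4) {t : ℝ} (ht : t ∈ I) :
    HasDerivAt (fun t => J.R a (u t)) (J.R a (u' t)) t := by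
  refine (h.R a).hasDerivAt' hI (h'.R a) (fun k t ht => ?_) ht
  have := ((Rk a k ∘L toH).restrictScalars ℝ).hasFDerivAt.comp_hasDerivAt t (hd t ht)
  rw [← toH_Pc, ((h'.sb ht).HR a).Pc]
  refine this.congr_of_eventuallyEq ?_
  filter_upwards [hI.mem_nhds ht] with τ hτ
  rw [← toH_Pc, ((h.sb hτ).HR a).Pc]; rfl

end real

end Crest.Agent.N207.J
end
end

-- ▼ part N207/J/Re3
section

/-! # N207/J/Re3 (helper72): from mode bounds to `C^N` functions on annuli -/

set_option autoImplicit false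
set_option maxHeartbeats 400000
open MeasureTheory Metric Topology Filter
open Crest.Agent.R246.Zon797
open scoped InnerProductSpace

noncomputable section

namespace Crest.Agent.N207.J

/-- the annulus over a set of `log`-radii -/
def An (I : Set ℝ) : Set E4 := {x | x ≠ 0 ∧ Real.log ‖x‖ ∈ I}

theorem An_mem_nhds {I : Set ℝ} (hI : IsOpen I) {x : E4} (hx : x ∈ An I) : An I ∈ 𝓝 x := by
  filter_upwards [isOpen_ne.mem_nhds hx.1,
    (hasFDerivAt_logn hx.1).continuousAt.preimage_mem_nhds (hI.mem_nhds hx.2)] with y h1 h2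
  exact ⟨h1, h2⟩

theorem isOpen_An {I : Set ℝ} (hI : IsOpen I) : IsOpen (An I) :=
  isOpen_iff_mem_nhds.2 fun _ hx => An_mem_nhds hI hx

theorem polar_mem_An {I : Set ℝ} {t : ℝ} (ht : t ∈ I) (ω : S3) :
    Real.exp t • (ω : E4) ∈ An I :=
  ⟨smul_S3_ne (Real.exp_pos t) ω, by rwa [norm_smul_S3 (Real.exp_pos t), Real.log_exp]⟩

theorem continuousOn_ann {I : Set ℝ} {u : ℝ → CS} (hu : ContinuousOn u I) :
    ContinuousOn (ann u) (An I) := by
  intro x hx
  have h1 : ContinuousWithinAt (fun y : E4 => u (Real.log ‖y‖)) (An I) x :=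
    ContinuousWithinAt.comp (f := fun y : E4 => Real.log ‖y‖) (hu _ hx.2)
      (hasFDerivAt_logn hx.1).continuousAt.continuousWithinAt fun _ hy => hy.2
  exact h1.eval (continuousAt_prj hx.1).continuousWithinAt

/-- `u j` is the `j`-th `t`-derivative, with `N - j` angular derivatives -/
structure Ch (I : Set ℝ) (N : ℕ) (M : ℝ) (u : ℕ → ℝ → CS) : Prop where
  ub : ∀ j ≤ N, Ub I (N - j + 2) M (u j)
  cont : ∀ j ≤ N, ContinuousOn (u j) I
  der : ∀ j < N, ∀ t ∈ I, HasDerivAt (u j) (u (j + 1) t) t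

variable {I : Set ℝ} {N : ℕ} {M : ℝ} {u : ℕ → ℝ → CS}

theorem Ch.of_modes (hI : IsOpen I) (ub : ∀ j ≤ N, Ub I (N - j + 2) M (u j))
    (cont : ∀ k, ContinuousOn (fun t => P k (toH (u N t))) I)
    (der : ∀ j < N, ∀ k, ∀ t ∈ I,
      HasDerivAt (fun t => P k (toH (u j t))) (P k (toH (u (j + 1) t))) t) : Ch I N M u := by
  have d : ∀ j < N, ∀ t ∈ I, HasDerivAt (u j) (u (j + 1) t) t := fun j hj t ht =>
    (ub j hj.le).hasDerivAt' hI (ub (j + 1) hj) (der j hj) ht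
  refine ⟨ub, fun j hj => ?_, d⟩
  rcases hj.lt_or_eq with hj | rfl
  · exact fun t ht => (d j hj t ht).continuousAt.continuousWithinAt
  · exact (ub j le_rfl).continuousOn cont

theorem Ch.mono (h : Ch I N M u) {N' : ℕ} {M' : ℝ} {I' : Set ℝ} (hN : N' ≤ N) (hM : M ≤ M')
    (hI : I' ⊆ I) : Ch I' N' M' u :=
  ⟨fun j hj => (h.ub j (hj.trans hN)).mono (by omega) hM hI,
    fun j hj => (h.cont j (hj.trans hN)).mono hI,
    fun j hj t ht => h.der j (hj.trans_le hN) t (hI ht)⟩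

theorem Ch.ub' (h : Ch I (N + 1) M u) {j : ℕ} (hj : j ≤ N) : Ub I (N - j + 3) M (u j) := by
  have := h.ub j (by omega)
  rwa [show N + 1 - j + 2 = N - j + 3 by omega] at this

theorem Ch.shift (h : Ch I (N + 1) M u) : Ch I N M fun j => u (j + 1) :=
  ⟨fun j hj => by simpa using h.ub (j + 1) (by omega), fun j hj => h.cont _ (by omega),
    fun j hj => h.der _ (by omega)⟩

theorem Ch.rot (hI : IsOpen I) (h : Ch I (N + 1) M u) (a : Pr 4) :
    Ch I N M fun j t => R a (u j t) :=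
  ⟨fun _ hj => (h.ub' hj).R a, fun j hj => (h.ub' hj).continuousOn_R (h.cont j (by omega)) a,
    fun j hj _ ht => (h.ub' hj.le).hasDerivAt_R hI (h.ub' hj) (h.der j (by omega)) a ht⟩

/-- the family of `r ∂_i` applied to `r^{-m} u` -/
def Dn (m : ℕ) (i : Fin 4) (u : ℕ → ℝ → CS) (j : ℕ) (t : ℝ) : CS :=
  xc i * (u (j + 1) t - (m : ℂ) • u j t) + gr (u j t) i

theorem Ch.dn (hI : IsOpen I) (h : Ch I (N + 1) M u) (m : ℕ) (i : Fin 4) :
    Ch I N (2 ^ (N + 4) * (m + 7) * M) (Dn m i u) := by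
  have hM := (h.ub 0 (by omega)).nonneg
  refine ⟨fun j hj => ?_, fun j hj => ?_, fun j hj t ht => ?_⟩
  · have h1 := (((h.shift.ub j hj).add (((h.ub' hj).le (m := N - j + 2) (by omega)).smul
      (-(m : ℂ)))).mul (xc_mem i) (norm_xc_le i)).add ((h.ub' hj).gr i)
    refine (h1.congr fun t _ => ?_).mono le_rfl ?_ subset_rfl
    · ext x; simp [Dn, sub_eq_add_neg]
    · have : (2 : ℝ) ^ (N - j + 4) ≤ 2 ^ (N + 4) := pow_le_pow_right₀ one_le_two (by omega)
      simp only [norm_neg, Complex.norm_natCast]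
      have h2 : 0 ≤ ((m : ℝ) + 7) * M := by positivity
      nlinarith [mul_le_mul_of_nonneg_right this h2]
  · refine (continuousOn_const.mul ((h.cont (j + 1) (by omega)).sub
      ((h.cont j (by omega)).const_smul (m : ℂ)))).add ?_
    exact continuousOn_finsetSum _ fun a _ => continuousOn_const.mul ((h.rot hI a).cont j hj)
  · refine (((h.der (j + 1) (by omega) t ht).sub
      ((h.der j (by omega) t ht).const_smul (m : ℂ))).const_mul (xc i)).add ?_
    exact HasDerivAt.fun_sum fun a _ => ((h.rot hI a).der j hj t ht).const_mul (rx a i)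

/-- `r^{-m} u` on the annulus -/
def annw (m : ℕ) (u : ℝ → CS) (x : E4) : ℂ := ((‖x‖⁻¹ ^ m : ℝ) : ℂ) * ann u x

theorem annw_zero (u : ℝ → CS) : annw 0 u = ann u := by funext x; simp [annw]

theorem Ch.hasFDerivAt_w (h : Ch I (N + 1) M u) (m : ℕ) {x : E4} (hx : x ∈ An I) :
    HasFDerivAt (annw m (u 0)) (cov fun i => annw (m + 1) (Dn m i u 0) x) x := by
  have h1 := hasFDerivAt_ann hx.1 (h.der 0 (by omega) _ hx.2) ((h.ub' (Nat.zero_le N)).sb hx.2).HG
  have h2 := Complex.ofRealCLM.hasFDerivAt.comp x ((hasFDerivAt_invn hx.1).pow m)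
  have hn : ((‖x‖ : ℝ) : ℂ) ≠ 0 := by exact_mod_cast norm_ne_zero_iff.2 hx.1
  refine (h2.mul h1).congr_fderiv (clm_ext fun i => ?_)
  cases m with
  | zero => simp [cov_ee, annw, ann, Dn]
  | succ m =>
    simp [cov_ee, annw, ann, Dn, prj_coe hx.1]
    field_simp
    ring

/-- `c ↦ c • dx i` -/
def sdx (i : Fin 4) : ℂ →L[ℝ] (E4 →L[ℝ] ℂ) :=
  (ContinuousLinearMap.compL ℝ E4 ℂ ℂ).flip (dx i) ∘L ContinuousLinearMap.mul ℝ ℂ

theorem sdx_apply (i : Fin 4) (c : ℂ) : sdx i c = c • dx i := by ext h; simp [sdx]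

theorem norm_sdx_le (i : Fin 4) : ‖sdx i‖ ≤ 1 :=
  ContinuousLinearMap.opNorm_le_bound _ zero_le_one fun c => by
    rw [sdx_apply, norm_smul, one_mul]
    exact mul_le_of_le_one_right (norm_nonneg _) (norm_dx_le i)

theorem cov_eq_sdx (c : Fin 4 → ℂ) : cov c = ∑ i, sdx i (c i) := by simp only [cov, sdx_apply]

theorem contDiffAt_cov {n : ℕ} {g : Fin 4 → E4 → ℂ} {x : E4} (hg : ∀ i, ContDiffAt ℝ n (g i) x) :
    ContDiffAt ℝ n (fun y => cov fun i => g i y) x := by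
  simp only [cov_eq_sdx]
  exact ContDiffAt.sum fun i _ => (sdx i).contDiff.contDiffAt.comp x (hg i)

theorem norm_iteratedFDeriv_cov_le {n : ℕ} {g : Fin 4 → E4 → ℂ} {x : E4}
    (hg : ∀ i, ContDiffAt ℝ n (g i) x) :
    ‖iteratedFDeriv ℝ n (fun y => cov fun i => g i y) x‖ ≤ ∑ i, ‖iteratedFDeriv ℝ n (g i) x‖ := by
  simp only [cov_eq_sdx]
  rw [iteratedFDeriv_fun_sum_apply (f := fun i y => sdx i (g i y))
    fun i _ => (sdx i).contDiff.contDiffAt.comp x (hg i)]
  refine norm_sum_le_of_le _ fun i _ => ((sdx i).norm_iteratedFDeriv_comp_left (hg i) le_rfl).trans ?_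
  exact mul_le_of_le_one_left (norm_nonneg _) (norm_sdx_le i)

theorem Ch.contDiffAt_w (hI : IsOpen I) (h : Ch I N M u) (m : ℕ) {x : E4} (hx : x ∈ An I) :
    ContDiffAt ℝ N (annw m (u 0)) x := by
  induction N generalizing m M u with
  | zero =>
    refine (contDiffOn_zero.2 ?_).contDiffAt (An_mem_nhds hI hx)
    refine ContinuousOn.mul (fun y hy => ?_) (continuousOn_ann (h.cont 0 le_rfl))
    exact (Complex.continuous_ofReal.continuousAt.comp
      ((hasFDerivAt_invn hy.1).continuousAt.pow m)).continuousWithinAt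
  | succ N ih =>
    rw [Nat.cast_succ, contDiffAt_succ_iff_hasFDerivAt]
    exact ⟨_, ⟨_, An_mem_nhds hI hx, fun y hy => h.hasFDerivAt_w m hy⟩,
      contDiffAt_cov fun i => ih (h.dn hI m i) (m + 1)⟩

/-- constants of the `C^N` bound -/
def cB : ℕ → ℕ → ℝ
  | 0, _ => 1
  | N + 1, m => 4 * cB N (m + 1) * (2 ^ (N + 4) * (m + 7))

theorem cB_pos (N m : ℕ) : 0 < cB N m := by
  induction N generalizing m with
  | zero => exact one_pos
  | succ N ih => have := ih (m + 1); unfold cB; positivity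

theorem Ch.bound_w (hI : IsOpen I) (h : Ch I N M u) (m : ℕ) {x : E4} (hx : x ∈ An I) :
    ‖x‖ ^ (m + N) * ‖iteratedFDeriv ℝ N (annw m (u 0)) x‖ ≤ cB N m * M := by
  have hn := norm_pos_iff.2 hx.1
  induction N generalizing m M u with
  | zero =>
    rw [norm_iteratedFDeriv_zero, annw, norm_mul, Complex.norm_real,
      Real.norm_of_nonneg (by positivity), add_zero, ← mul_assoc, ← mul_pow,
      mul_inv_cancel₀ hn.ne', one_pow, cB]
    exact mul_le_mul_of_nonneg_left (((u 0 _).norm_coe_le_norm _).trans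
      ((h.ub 0 le_rfl).norm_le hx.2)) zero_le_one
  | succ N ih =>
    have e : fderiv ℝ (annw m (u 0)) =ᶠ[𝓝 x] fun y => cov fun i => annw (m + 1) (Dn m i u 0) y := by
      filter_upwards [An_mem_nhds hI hx] with y hy using (h.hasFDerivAt_w m hy).fderiv
    rw [← norm_iteratedFDeriv_fderiv, (e.iteratedFDeriv ℝ N).eq_of_nhds]
    refine (mul_le_mul_of_nonneg_left (norm_iteratedFDeriv_cov_le fun i =>
      (h.dn hI m i).contDiffAt_w hI (m + 1) hx) (by positivity)).trans ?_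
    rw [Finset.mul_sum, show m + (N + 1) = m + 1 + N by ring]
    refine (Finset.sum_le_sum fun i _ => ih (h.dn hI m i) (m + 1)).trans (le_of_eq ?_)
    simp [cB]; ring

/-- **bridge**: smoothness -/
theorem Ch.contDiffOn (hI : IsOpen I) (h : Ch I N M u) : ContDiffOn ℝ N (ann (u 0)) (An I) :=
  fun _ hx => (annw_zero (u 0) ▸ h.contDiffAt_w hI 0 hx).contDiffWithinAt

/-- **bridge**: scale invariant bounds -/
theorem Ch.bound (hI : IsOpen I) (h : Ch I N M u) {j : ℕ} (hj : j ≤ N) {x : E4} (hx : x ∈ An I) :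
    ‖x‖ ^ j * ‖iteratedFDeriv ℝ j (ann (u 0)) x‖ ≤ cB j 0 * M := by
  have := (h.mono hj le_rfl subset_rfl).bound_w hI 0 hx
  rwa [zero_add, annw_zero] at this

/-! ### first and second jets -/

/-- `r ∂_i U` -/
def J1 (i : Fin 4) (u u' : CS) : CS := xc i * u' + gr u i

/-- `r² ∂_l ∂_i U` -/
def J2 (l i : Fin 4) (u u' u'' : CS) : CS :=
  xc l * (J1 i u' u'' - J1 i u u') + gr (J1 i u u') l

theorem Dn_zero (i : Fin 4) (j : ℕ) (t : ℝ) : Dn 0 i u j t = J1 i (u j t) (u (j + 1) t) := by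
  ext x; simp [Dn, J1]

theorem Ch.jet1 (h : Ch I (N + 1) M u) {x : E4} (hx : x ∈ An I) (i : Fin 4) :
    ((‖x‖ : ℝ) : ℂ) * fderiv ℝ (ann (u 0)) x (ee i)
      = J1 i (u 0 (Real.log ‖x‖)) (u 1 (Real.log ‖x‖)) (prj x) := by
  have hn : ((‖x‖ : ℝ) : ℂ) ≠ 0 := by exact_mod_cast norm_ne_zero_iff.2 hx.1
  rw [← annw_zero, (h.hasFDerivAt_w 0 hx).fderiv, cov_ee, annw, ann, Dn_zero]
  push_cast
  field_simp

theorem Ch.jet2 (hI : IsOpen I) (h : Ch I (N + 2) M u) {x : E4} (hx : x ∈ An I) (l i : Fin 4) :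
    ((‖x‖ : ℝ) : ℂ) ^ 2 * fderiv ℝ (fun y => fderiv ℝ (ann (u 0)) y (ee i)) x (ee l)
      = J2 l i (u 0 (Real.log ‖x‖)) (u 1 (Real.log ‖x‖)) (u 2 (Real.log ‖x‖)) (prj x) := by
  have hn : ((‖x‖ : ℝ) : ℂ) ≠ 0 := by exact_mod_cast norm_ne_zero_iff.2 hx.1
  have e : (fun y => fderiv ℝ (ann (u 0)) y (ee i)) =ᶠ[𝓝 x] annw 1 (Dn 0 i u 0) := by
    filter_upwards [An_mem_nhds hI hx] with y hy
    rw [← annw_zero, (h.hasFDerivAt_w 0 hy).fderiv, cov_ee]
  rw [e.fderiv_eq, ((h.dn hI 0 i).hasFDerivAt_w 1 hx).fderiv, cov_ee, annw, ann]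
  have : ∀ t, Dn 1 l (Dn 0 i u) 0 t = J2 l i (u 0 t) (u 1 t) (u 2 t) := fun t => by
    ext y; simp [J2, Dn_zero, show Dn 1 l (Dn 0 i u) 0 t = xc l * (Dn 0 i u 1 t -
      ((1 : ℕ) : ℂ) • Dn 0 i u 0 t) + gr (Dn 0 i u 0 t) l from rfl]
  rw [this]
  push_cast
  field_simp

/-- trace of the second jet -/
theorem sum_J2 {n n' : ℕ} {u u' : CS} (u'' : CS) (hu : Sb (n + 4) u) (hu' : Sb (n' + 3) u') :
    ∑ i, J2 i i u u' u'' = u'' + 2 * u' + Lap u := by
  have hR : ∀ a b, HR a (R b u) (R a (R b u)) := fun a b => (Sb.R (n := n + 1) hu b).HR a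
  have hu3 : Sb (n + 1 + 3) u := hu
  -- rotation derivatives of the gradient
  have hg : ∀ a i, HR a (gr u i) (R a (gr u i)) := fun a i => by
    have := HR.sum (s := Finset.univ) fun b _ => (HR_R a (rx_mem b i)).mul (hR a b)
    exact this.R_eq ▸ this
  have e1 : ∀ a i, R a (J1 i u u') = rx a i * u' + xc i * R a u' + R a (gr u i) := fun a i =>
    (((HR.xc a i).mul (hu'.HR a)).add (hg a i)).R_eq
  have e2 : ∀ a, R a u = ∑ i, rx a i * gr u i := fun a => (hu3.HG.HR a).R_eq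
  have e3 : ∀ a, R a (R a u) = ∑ i, (R a (rx a i) * gr u i + rx a i * R a (gr u i)) := fun a => by
    rw [e2 a]
    exact (HR.sum fun i _ => (HR_R a (rx_mem a i)).mul (hg a i)).R_eq
  have e4 : Lap u = ∑ i, ∑ a, rx a i * R a (gr u i) := by
    unfold Lap
    simp only [e3, Finset.sum_add_distrib]
    rw [Finset.sum_comm, Finset.sum_comm (s := Finset.univ) (t := Finset.univ)
      (f := fun a i => rx a i * R a (gr u i))]
    simp only [← Finset.sum_mul, lap_xc, mul_assoc, ← Finset.mul_sum, sum_xc_gr]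
    simp
  have e5 : ∀ i, gr (J1 i u u') i = (1 - xc i * xc i) * u' + xc i * gr u' i +
      ∑ a, rx a i * R a (gr u i) := fun i => by
    have := gam_xc i i
    rw [if_pos rfl] at this
    rw [← this, gr, gr, Finset.sum_mul, Finset.mul_sum, ← Finset.sum_add_distrib,
      ← Finset.sum_add_distrib]
    exact Finset.sum_congr rfl fun a _ => by rw [e1]; ring
  have s1 := sum_xc_gr u
  have s2 := sum_xc_gr u'
  have s3 := sum_xc_sq
  simp only [J2, e5, e4]
  simp only [J1, Fin.sum_univ_four] at s1 s2 s3 ⊢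
  linear_combination (u'' - 2 * u') * s3 + 2 * s2 - s1

end Crest.Agent.N207.J
end
private theorem rz_256edb46d8 : type_of% @_root_.Crest.Agent.N207.J.cB.eq_def := @_root_.Crest.Agent.N207.J.cB.eq_def -- L158
private theorem rz_c575130500 : type_of% @_root_.Crest.Agent.N207.J.cB.eq_1 := @_root_.Crest.Agent.N207.J.cB.eq_1 -- L158
end

-- ▼ part N207/J/Re4
section

/-! # N207/J/Re4 (helper72): restriction to spheres; polar Laplacian; mode equation -/

set_option autoImplicit false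
set_option maxHeartbeats 400000
open MeasureTheory Metric Topology Filter Asymptotics
open Crest.Agent.R246.Zon797
open scoped InnerProductSpace

noncomputable section

namespace Crest.Agent.N207.J

/-- restriction of `U` to the sphere of radius `e^t` -/
def rst (U : E4 → ℂ) (t : ℝ) : CS := ContinuousMap.mkD (fun ω : S3 => U (Real.exp t • (ω : E4))) 0

variable {U : E4 → ℂ} {I : Set ℝ}

theorem rst_apply' {t : ℝ} (h : ∀ ω : S3, ContinuousAt U (Real.exp t • (ω : E4))) (ω : S3) :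
    rst U t ω = U (Real.exp t • (ω : E4)) :=
  ContinuousMap.mkD_apply_of_continuous (continuous_iff_continuousAt.2 fun ω =>
    ContinuousAt.comp (f := fun ω : S3 => Real.exp t • (ω : E4)) (h ω) (by fun_prop))

theorem rst_apply (h : ContinuousOn U (An I)) {t : ℝ} (ht : t ∈ I) (ω : S3) :
    rst U t ω = U (Real.exp t • (ω : E4)) :=
  ContinuousMap.mkD_apply_of_continuous
    (h.comp_continuous (by fun_prop) fun ω => polar_mem_An ht ω)

theorem continuousOn_rst (h : ContinuousOn U (An I)) : ContinuousOn (rst U) I :=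
  ContinuousMap.continuousOn_mkD_of_uncurry _ _
    (h.comp (f := fun p : ℝ × S3 => Real.exp p.1 • (p.2 : E4)) (by fun_prop)
      fun p hp => polar_mem_An hp.1 p.2)


theorem rst_ann (u : ℝ → CS) (t : ℝ) : rst (ann u) t = u t := by
  unfold rst
  simp only [ann_polar]
  exact ContinuousMap.mkD_eq_self

theorem rst_congr {U' : E4 → ℂ} {t : ℝ}
    (h : ∀ ω : S3, U (Real.exp t • (ω : E4)) = U' (Real.exp t • (ω : E4))) :
    rst U t = rst U' t := by
  unfold rst; simp only [h]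

theorem norm_rst_le {t M : ℝ} (hM : 0 ≤ M) (h : ∀ ω : S3, ‖U (Real.exp t • (ω : E4))‖ ≤ M) :
    ‖rst U t‖ ≤ M := by
  refine (ContinuousMap.norm_le _ hM).2 fun ω => ?_
  by_cases hc : Continuous fun ω : S3 => U (Real.exp t • (ω : E4))
  · rw [rst, ContinuousMap.mkD_apply_of_continuous hc]; exact h ω
  · rw [rst, ContinuousMap.mkD_of_not_continuous hc]; simpa using hM

/-- pointwise derivatives with a continuous derivative are derivatives in `C(S³)` -/
theorem hasDerivAt_CS (hI : IsOpen I) {u u' : ℝ → CS}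
    (h : ∀ τ ∈ I, ∀ ω, HasDerivAt (fun τ => u τ ω) (u' τ ω) τ) {t : ℝ} (ht : t ∈ I)
    (hc : ContinuousAt u' t) : HasDerivAt u (u' t) t := by
  rw [hasDerivAt_iff_isLittleO, isLittleO_iff]
  intro ε hε
  obtain ⟨δ, hδ, hb⟩ := Metric.mem_nhds_iff.1 (Filter.inter_mem (hI.mem_nhds ht)
    (hc.eventually (closedBall_mem_nhds (u' t) hε)))
  filter_upwards [ball_mem_nhds t hδ] with τ hτ
  refine (ContinuousMap.norm_le _ (by positivity)).2 fun ω => ?_
  have := (convex_ball t δ).norm_image_sub_le_of_norm_hasDerivWithin_le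
    (f := fun σ => u σ ω - σ • u' t ω) (f' := fun σ => u' σ ω - u' t ω) (C := ε)
    (fun σ hσ => ((h σ (hb hσ).1 ω).sub (by
      simpa using (hasDerivAt_id σ).smul_const (u' t ω))).hasDerivWithinAt)
    (fun σ hσ => ((u' σ - u' t).norm_coe_le_norm ω).trans (mem_closedBall_iff_norm.1 (hb hσ).2))
    (mem_ball_self hδ) hτ
  refine le_trans (le_of_eq ?_) this
  congr 1
  simp [sub_smul]; ring

/-- derivative along a linear vector field -/
def Du (A : E4 →L[ℝ] E4) (U : E4 → ℂ) (x : E4) : ℂ := fderiv ℝ U x (A x)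

/-- the Euler operator `r ∂_r` -/
abbrev Eu (U : E4 → ℂ) : E4 → ℂ := Du (ContinuousLinearMap.id ℝ E4) U

theorem contDiffAt_Du {n : ℕ} (A : E4 →L[ℝ] E4) {x : E4} (h : ContDiffAt ℝ (n + 1 : ℕ) U x) :
    ContDiffAt ℝ n (Du A U) x :=
  (h.fderiv_right (by norm_cast)).clm_apply A.contDiff.contDiffAt

theorem contDiffOn_Du (hI : IsOpen I) {n : ℕ} (A : E4 →L[ℝ] E4)
    (h : ContDiffOn ℝ (n + 1 : ℕ) U (An I)) : ContDiffOn ℝ n (Du A U) (An I) := fun _ hx =>
  (contDiffAt_Du A (h.contDiffAt (An_mem_nhds hI hx))).contDiffWithinAt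

theorem hasDerivAt_rst (hI : IsOpen I) {n : ℕ} (h : ContDiffOn ℝ (n + 1 : ℕ) U (An I)) {t : ℝ}
    (ht : t ∈ I) : HasDerivAt (rst U) (rst (Eu U) t) t := by
  have hc := (contDiffOn_Du hI (ContinuousLinearMap.id ℝ E4) h).continuousOn
  refine hasDerivAt_CS hI (fun τ hτ ω => ?_) ht
    ((continuousOn_rst hc).continuousAt (hI.mem_nhds ht))
  have h1 := ((h.contDiffAt (An_mem_nhds hI (polar_mem_An hτ ω))).differentiableAt
    (by simp)).hasFDerivAt.comp_hasDerivAt τ ((Real.hasDerivAt_exp τ).smul_const (ω : E4))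
  rw [rst_apply hc hτ]
  refine h1.congr_of_eventuallyEq ?_
  filter_upwards [hI.mem_nhds hτ] with σ hσ
  exact rst_apply h.continuousOn hσ ω

theorem rotV_smul (a : Pr 4) (θ r : ℝ) (x : E4) :
    rotV a.1.1 a.1.2 θ (r • x) = r • rotV a.1.1 a.1.2 θ x := (rotE a θ).map_smul r x

theorem HR_rst {n : ℕ} {t : ℝ}
    (h : ∀ ω : S3, ContDiffAt ℝ (n + 1 : ℕ) U (Real.exp t • (ω : E4))) (a : Pr 4) :
    HR a (rst U t) (rst (Du (Xv a) U) t) := by
  intro ω
  rw [rst_apply' fun ω => (contDiffAt_Du _ (h ω)).continuousAt]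
  have := hasDerivAt_comp_rot a ((h ω).differentiableAt (by simp)).hasFDerivAt
  refine this.congr_of_eventuallyEq (Eventually.of_forall fun θ => ?_)
  show rst U t _ = U (rotV _ _ _ _)
  rw [rst_apply' fun ω => (h ω).continuousAt, rotS_coe, rotV_smul]

/-- `r² Δ U` -/
def Lp2 (U : E4 → ℂ) (x : E4) : ℂ :=
  ((‖x‖ : ℝ) : ℂ) ^ 2 * ∑ i, fderiv ℝ (fun y => fderiv ℝ U y (ee i)) x (ee i)

theorem fderiv_fderiv_apply {x : E4} (h : ContDiffAt ℝ (2 : ℕ) U x) (v w : E4) :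
    fderiv ℝ (fun y => fderiv ℝ U y v) x w = fderiv ℝ (fderiv ℝ U) x w v := by
  have h1 := ((h.fderiv_right (m := 1) (by norm_cast)).differentiableAt (by simp)).hasFDerivAt
  rw [(h1.clm_apply (hasFDerivAt_const v x)).fderiv]
  simp

theorem Du_Du {x : E4} (h : ContDiffAt ℝ (2 : ℕ) U x) (A B : E4 →L[ℝ] E4) :
    Du A (Du B U) x = fderiv ℝ (fderiv ℝ U) x (A x) (B x) + fderiv ℝ U x (B (A x)) := by
  have h1 := ((h.fderiv_right (m := 1) (by norm_cast)).differentiableAt (by simp)).hasFDerivAt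
  show fderiv ℝ (fun y => fderiv ℝ U y (B y)) x (A x) = _
  rw [(h1.clm_apply B.hasFDerivAt).fderiv]
  simp [add_comm]

theorem sum_Xv_Xv (x : E4) : ∑ a, Xv a (Xv a x) = (-3 : ℝ) • x := by
  rw [sum_Pr4]
  ext i
  fin_cases i <;> simp [Xv] <;> ring

theorem bil_frame (B : E4 →L[ℝ] E4 →L[ℝ] ℂ) (x : E4) :
    B x x + ∑ a, B (Xv a x) (Xv a x) = ((‖x‖ : ℝ) : ℂ) ^ 2 * ∑ i, B (ee i) (ee i) := by
  have e : ∀ v w : E4, B v w = ∑ i, ∑ j, ((v i : ℝ) : ℂ) * ((w j : ℝ) : ℂ) * B (ee i) (ee j) := by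
    intro v w
    have h1 : B v w = B.flip w v := rfl
    rw [h1, eq_cov (B.flip w), cov_apply]
    refine Finset.sum_congr rfl fun i _ => ?_
    rw [ContinuousLinearMap.flip_apply, eq_cov (B (ee i)), cov_apply, Finset.sum_mul]
    refine Finset.sum_congr rfl fun j _ => ?_
    rw [cov_ee]; ring
  have hn : ((‖x‖ : ℝ) : ℂ) ^ 2 = ∑ i, ((x i : ℝ) : ℂ) ^ 2 := by
    have := EuclideanSpace.real_norm_sq_eq x
    exact_mod_cast this
  rw [hn, e x x, sum_Pr4]
  simp only [e (Xv _ x) (Xv _ x), Fin.sum_univ_four]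
  simp [Xv]
  ring

/-- the Laplacian in polar coordinates -/
theorem polar_lap {x : E4} (h : ContDiffAt ℝ (2 : ℕ) U x) :
    Eu (Eu U) x + 2 * Eu U x + ∑ a, Du (Xv a) (Du (Xv a) U) x = Lp2 U x := by
  simp only [Du_Du h, Lp2, fderiv_fderiv_apply h, Finset.sum_add_distrib, ← map_sum, sum_Xv_Xv,
    ← bil_frame, ContinuousLinearMap.id_apply, map_smul, Complex.real_smul]
  simp only [Du, ContinuousLinearMap.id_apply]
  push_cast
  ring

theorem continuousAt_Lp2 {x : E4} (h : ContDiffAt ℝ (2 : ℕ) U x) : ContinuousAt (Lp2 U) x := by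
  refine ContinuousAt.mul (by fun_prop) (tendsto_finsetSum _ fun i _ => ?_)
  have h1 : ContDiffAt ℝ (1 : ℕ) (fun y => fderiv ℝ U y (ee i)) x :=
    (h.fderiv_right (by norm_cast)).clm_apply contDiffAt_const
  exact ((h1.fderiv_right (m := 0) (by norm_cast)).clm_apply contDiffAt_const).continuousAt

theorem P_sum_HR {u : CS} {v vv : Pr 4 → CS} (h : ∀ a, HR a u (v a)) (h' : ∀ a, HR a (v a) (vv a))
    (k : ℕ) : P k (toH (∑ a, vv a)) = -(((k * (k + 2) : ℕ) : ℂ) • P k (toH u)) := by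
  rw [← toH_Pc, ← toH_Pc, ← map_smul, ← map_neg, ← lap_Pc, map_sum, map_sum]
  congr 1
  exact Finset.sum_congr rfl fun a _ => by rw [(h' a).Pc, (h a).Pc]

/-- **mode equation** `u'' + 2 u' - k(k+2) u = P_k (r² Δ U)` -/
theorem mode_eq {t : ℝ} (h : ∀ ω : S3, ContDiffAt ℝ (2 : ℕ) U (Real.exp t • (ω : E4))) (k : ℕ) :
    P k (toH (rst (Eu (Eu U)) t)) + (2 : ℂ) • P k (toH (rst (Eu U) t))
      - ((k * (k + 2) : ℕ) : ℂ) • P k (toH (rst U t)) = P k (toH (rst (Lp2 U) t)) := by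
  have h1 : ∀ A (ω : S3), ContDiffAt ℝ (0 + 1 : ℕ) (Du A U) (Real.exp t • (ω : E4)) := fun A ω =>
    contDiffAt_Du A (h ω)
  have c1 := fun A ω => (h1 A ω).continuousAt
  have c2 := fun A B ω => (contDiffAt_Du B (h1 A ω)).continuousAt
  have e : rst (Lp2 U) t = rst (Eu (Eu U)) t + (2 : ℂ) • rst (Eu U) t +
      ∑ a, rst (Du (Xv a) (Du (Xv a) U)) t := by
    ext ω
    simp only [ContinuousMap.add_apply, ContinuousMap.smul_apply, ContinuousMap.coe_sum,
      Finset.sum_apply, rst_apply' (c1 _), rst_apply' (c2 _ _),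
      rst_apply' fun ω => continuousAt_Lp2 (h ω), smul_eq_mul]
    exact (polar_lap (h ω)).symm
  rw [e, map_add, map_add, map_add, map_add, map_smul, map_smul,
    P_sum_HR (fun a => HR_rst (n := 1) h a) (fun a => HR_rst (h1 _) a), sub_eq_add_neg]

/-! ### mode bounds from `C^N` bounds -/

/-- scale invariant `C^N` bound at a point -/
def PB (N : ℕ) (U : E4 → ℂ) (x : E4) (M : ℝ) : Prop :=
  ContDiffAt ℝ N U x ∧ ∀ j ≤ N, ‖x‖ ^ j * ‖iteratedFDeriv ℝ j U x‖ ≤ M

theorem PB.mono {N N' : ℕ} {x : E4} {M M' : ℝ} (h : PB N U x M) (hN : N' ≤ N) (hM : M ≤ M') :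
    PB N' U x M' :=
  ⟨h.1.of_le (by exact_mod_cast hN), fun j hj => (h.2 j (hj.trans hN)).trans hM⟩

theorem PB.norm_le {N : ℕ} {x : E4} {M : ℝ} (h : PB N U x M) : ‖U x‖ ≤ M := by
  simpa using h.2 0 (Nat.zero_le N)

theorem PB.nonneg {N : ℕ} {x : E4} {M : ℝ} (h : PB N U x M) : 0 ≤ M :=
  (norm_nonneg _).trans h.norm_le

theorem lin_iter_le (A : E4 →L[ℝ] E4) (hA : ‖A‖ ≤ 1) (m : ℕ) (x : E4) :
    ‖x‖ ^ m * ‖iteratedFDeriv ℝ m A x‖ ≤ ‖x‖ := by
  match m with
  | 0 => simpa using (A.le_opNorm x).trans (mul_le_of_le_one_left (norm_nonneg _) hA)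
  | 1 =>
    rw [← norm_iteratedFDeriv_fderiv, norm_iteratedFDeriv_zero, A.fderiv, pow_one]
    exact mul_le_of_le_one_right (norm_nonneg _) hA
  | m + 2 =>
    rw [← norm_iteratedFDeriv_fderiv]
    have : fderiv ℝ A = fun _ => A := funext fun _ => A.fderiv
    rw [this, iteratedFDeriv_succ_const]
    simp

theorem PB.du {N : ℕ} {x : E4} {M : ℝ} (h : PB (N + 1) U x M) (A : E4 →L[ℝ] E4) (hA : ‖A‖ ≤ 1) :
    PB N (Du A U) x (2 ^ N * M) := by
  refine ⟨contDiffAt_Du A h.1, fun j hj => ?_⟩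
  have h1 : ContDiffAt ℝ N (fderiv ℝ U) x := h.1.fderiv_right (by norm_cast)
  obtain ⟨s, hs, h2⟩ := h1.contDiffOn le_rfl (by simp)
  obtain ⟨s', hs', ho, hx⟩ := _root_.mem_nhds_iff.1 hs
  have h3 := norm_iteratedFDerivWithin_clm_apply (h2.mono hs') (A.contDiff.contDiffOn (s := s'))
    ho.uniqueDiffOn hx (n := j) (by exact_mod_cast hj)
  simp only [iteratedFDerivWithin_of_isOpen _ ho hx, norm_iteratedFDeriv_fderiv] at h3
  refine (mul_le_mul_of_nonneg_left h3 (by positivity)).trans ?_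
  rw [Finset.mul_sum]
  have h4 : ∀ i ∈ Finset.range (j + 1), ‖x‖ ^ j * ((j.choose i : ℝ) *
      ‖iteratedFDeriv ℝ (i + 1) U x‖ * ‖iteratedFDeriv ℝ (j - i) A x‖) ≤ j.choose i * M := by
    intro i hi
    have hi' : i ≤ j := Nat.lt_succ_iff.1 (Finset.mem_range.1 hi)
    have e : ‖x‖ ^ j = ‖x‖ ^ i * ‖x‖ ^ (j - i) := by rw [← pow_add, Nat.add_sub_cancel' hi']
    have k1 := lin_iter_le A hA (j - i) x
    have k2 := h.2 (i + 1) (by omega)
    calc _ = j.choose i * (‖x‖ ^ i * ‖iteratedFDeriv ℝ (i + 1) U x‖ *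
          (‖x‖ ^ (j - i) * ‖iteratedFDeriv ℝ (j - i) A x‖)) := by rw [e]; ring
      _ ≤ j.choose i * (‖x‖ ^ i * ‖iteratedFDeriv ℝ (i + 1) U x‖ * ‖x‖) := by gcongr
      _ ≤ _ := by
        refine mul_le_mul_of_nonneg_left (le_trans (le_of_eq ?_) k2) (by positivity)
        ring
  refine (Finset.sum_le_sum h4).trans ?_
  rw [← Finset.sum_mul, ← Nat.cast_sum, Nat.sum_range_choose]
  push_cast
  exact mul_le_mul_of_nonneg_right (pow_le_pow_right₀ one_le_two hj) h.nonneg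

theorem norm_Xv_le (a : Pr 4) : ‖Xv a‖ ≤ 1 := by
  refine ContinuousLinearMap.opNorm_le_bound _ zero_le_one fun x => ?_
  rw [one_mul]
  refine (sq_le_sq₀ (norm_nonneg _) (norm_nonneg _)).1 ?_
  rw [EuclideanSpace.real_norm_sq_eq, EuclideanSpace.real_norm_sq_eq]
  obtain ⟨⟨i, j⟩, h⟩ := a
  fin_cases i <;> fin_cases j <;> simp at h <;> simp [Xv, Fin.sum_univ_four] <;>
    nlinarith [sq_nonneg (x 0), sq_nonneg (x 1), sq_nonneg (x 2), sq_nonneg (x 3)]

/-- constants of the mode bound -/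
def cM : ℕ → ℝ
  | 0 => 5
  | N + 1 => 3 * 2 ^ N * cM N

theorem cM_pos (N : ℕ) : 0 < cM N := by
  induction N with
  | zero => norm_num [cM]
  | succ N ih => unfold cM; positivity


/-- **mode bound** -/
theorem mode_le {N : ℕ} {t M : ℝ} (h : ∀ ω : S3, PB N U (Real.exp t • (ω : E4)) M) (k : ℕ) :
    ((k : ℝ) + 1) ^ N * ‖P k (toH (rst U t))‖ ≤ cM N * M := by
  have hM := (h (prj 0)).nonneg
  induction N generalizing U M with
  | zero =>
    rw [pow_zero, one_mul]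
    exact (norm_P_le k _).trans ((norm_toH_le _).trans
      (mul_le_mul_of_nonneg_left (norm_rst_le hM fun ω => (h ω).norm_le) (by norm_num)))
  | succ N ih =>
    have h1 := ih (fun ω => (h ω).mono (Nat.le_succ N) le_rfl) hM
    have h2 := fun a => ih (fun ω => (h ω).du (Xv a) (norm_Xv_le a)) (by positivity)
    have h3 := sum_norm_P_HR (fun a => HR_rst (fun ω => (h ω).1) a) k
    have hc := cM_pos N
    have h4 : cM N * M ≤ cM N * (2 ^ N * M) :=
      mul_le_mul_of_nonneg_left (le_mul_of_one_le_left hM (one_le_pow₀ one_le_two)) hc.le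
    refine (sq_le_sq₀ (by positivity) (by have := cM_pos (N + 1); positivity)).1 ?_
    have h5 : ∑ a, (((k : ℝ) + 1) ^ N * ‖P k (toH (rst (Du (Xv a) U) t))‖) ^ 2
        ≤ ∑ _a : Pr 4, (cM N * (2 ^ N * M)) ^ 2 :=
      Finset.sum_le_sum fun a _ => pow_le_pow_left₀ (by positivity) (h2 a) 2
    have e : Fintype.card (Pr 4) = 6 := by decide
    simp only [mul_pow _ ‖_‖, ← Finset.mul_sum, h3, Finset.sum_const, Finset.card_univ, e,
      nsmul_eq_mul] at h5
    have h6 := pow_le_pow_left₀ (by positivity) (h1.trans h4) 2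
    have e2 : (((k : ℝ) + 1) ^ (N + 1) * ‖P k (toH (rst U t))‖) ^ 2 =
        (((k : ℝ) + 1) ^ N) ^ 2 * ((k * (k + 2) : ℝ) * ‖P k (toH (rst U t))‖ ^ 2) +
        (((k : ℝ) + 1) ^ N * ‖P k (toH (rst U t))‖) ^ 2 := by ring
    have e3 : (cM (N + 1) * M) ^ 2 = 9 * (cM N * (2 ^ N * M)) ^ 2 := by simp only [cM]; ring
    rw [e2, e3]
    push_cast at h5
    nlinarith [sq_nonneg (cM N * (2 ^ N * M))]

end Crest.Agent.N207.J
end
private theorem rz_fc477537da : type_of% @_root_.Crest.Agent.N207.J.cM.eq_def := @_root_.Crest.Agent.N207.J.cM.eq_def -- L261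
private theorem rz_4fb8c8e93c : type_of% @_root_.Crest.Agent.N207.J.cM.eq_1 := @_root_.Crest.Agent.N207.J.cM.eq_1 -- L261
end

-- ▼ part N207/J/Re5

/-! # N207/J/Re5 (helper72): jets of `C²` functions; amplitudes `p_k`, `q_k`; outgoing lemma -/

set_option autoImplicit false
set_option maxHeartbeats 400000
open MeasureTheory Metric Topology Filter Set
open Crest.Agent.R246.Zon797
open scoped InnerProductSpace

noncomputable section

namespace Crest.Agent.N207.J

variable {U : E4 → ℂ} {I : Set ℝ}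

theorem frame_ee (ω : S3) (i : Fin 4) :
    ee i = (ω : E4) i • (ω : E4) + ∑ a, Xv a (ω : E4) i • Xv a (ω : E4) := by
  ext j
  have h := congrArg (fun u : CS => u ω) (gam_xc i j)
  simp only [ContinuousMap.coe_sum, Finset.sum_apply, ContinuousMap.mul_apply, ← Xv_coord,
    ContinuousMap.sub_apply, xc_apply] at h
  have h2 : ∑ a, Xv a (ω : E4) i * Xv a (ω : E4) j
      = (if i = j then 1 else 0) - (ω : E4) i * (ω : E4) j := by
    apply Complex.ofReal_injective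
    push_cast
    rw [h]
    split_ifs <;> simp
  simp only [PiLp.add_apply, PiLp.smul_apply, smul_eq_mul, WithLp.ofLp_sum, Finset.sum_apply,
    WithLp.ofLp_smul, Pi.smul_apply, h2]
  by_cases hij : i = j
  · subst hij; simp
  · simp [hij, Ne.symm hij]




/-! ### amplitudes -/

/-- mode `k` of `U` at radius `e^t` -/
def mdU (U : E4 → ℂ) (k : ℕ) (t : ℝ) : H := P k (toH (rst U t))

/-- growing amplitude -/
def pm (U : E4 → ℂ) (k : ℕ) (t : ℝ) : H :=
  (2 * (k : ℂ) + 2)⁻¹ • (((k : ℂ) + 2) • mdU U k t + mdU (Eu U) k t)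

/-- decaying amplitude -/
def qm (U : E4 → ℂ) (k : ℕ) (t : ℝ) : H :=
  (2 * (k : ℂ) + 2)⁻¹ • ((k : ℂ) • mdU U k t - mdU (Eu U) k t)

theorem two_k_ne (k : ℕ) : (2 * (k : ℂ) + 2) ≠ 0 := by
  exact_mod_cast (by omega : 2 * k + 2 ≠ 0)

theorem P_mdU (k : ℕ) (t : ℝ) : P k (mdU U k t) = mdU U k t := P_P _ _
theorem P_pm (k : ℕ) (t : ℝ) : P k (pm U k t) = pm U k t := by simp only [pm, map_smul, map_add, P_mdU]
theorem P_qm (k : ℕ) (t : ℝ) : P k (qm U k t) = qm U k t := by simp only [qm, map_smul, map_sub, P_mdU]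

theorem pm_add_qm (k : ℕ) (t : ℝ) : pm U k t + qm U k t = mdU U k t := by
  have := two_k_ne k
  unfold pm qm
  match_scalars <;> field_simp <;> ring

theorem pm_sub_qm (k : ℕ) (t : ℝ) :
    (k : ℂ) • pm U k t - ((k : ℂ) + 2) • qm U k t = mdU (Eu U) k t := by
  have := two_k_ne k
  unfold pm qm
  match_scalars <;> field_simp <;> ring

theorem mdU_eq {t : ℝ} (h : ∀ ω : S3, ContDiffAt ℝ (2 : ℕ) U (Real.exp t • (ω : E4))) (k : ℕ) :
    mdU (Eu (Eu U)) k t = mdU (Lp2 U) k t - (2 : ℂ) • mdU (Eu U) k t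
      + ((k : ℂ) * (k + 2)) • mdU U k t := by
  have := mode_eq h k
  push_cast at this
  unfold mdU
  rw [← this]; abel

theorem pm_qm_two {t : ℝ} (h : ∀ ω : S3, ContDiffAt ℝ (2 : ℕ) U (Real.exp t • (ω : E4))) (k : ℕ) :
    (k : ℂ) ^ 2 • pm U k t + ((k : ℂ) + 2) ^ 2 • qm U k t + mdU (Lp2 U) k t
      = mdU (Eu (Eu U)) k t := by
  have := two_k_ne k
  rw [mdU_eq h]
  unfold pm qm
  match_scalars <;> field_simp <;> ring

theorem hasDerivAt_mdU (hI : IsOpen I) {n : ℕ} (h : ContDiffOn ℝ (n + 1 : ℕ) U (An I)) (k : ℕ)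
    {t : ℝ} (ht : t ∈ I) : HasDerivAt (mdU U k) (mdU (Eu U) k t) t :=
  ((P k ∘L toH).restrictScalars ℝ).hasFDerivAt.comp_hasDerivAt t (hasDerivAt_rst hI h ht)


theorem hasDerivAt_pm (hI : IsOpen I) (h : ContDiffOn ℝ (2 : ℕ) U (An I)) (k : ℕ) {t : ℝ}
    (ht : t ∈ I) :
    HasDerivAt (pm U k) ((k : ℂ) • pm U k t + (2 * (k : ℂ) + 2)⁻¹ • mdU (Lp2 U) k t) t := by
  have h1 := (((hasDerivAt_mdU hI (n := 1) h k ht).const_smul ((k : ℂ) + 2)).add
    (hasDerivAt_mdU hI (n := 0) (contDiffOn_Du hI (ContinuousLinearMap.id ℝ E4) h) k ht)).const_smul (2 * (k : ℂ) + 2)⁻¹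
  refine h1.congr_deriv ?_
  rw [mdU_eq fun ω => h.contDiffAt (An_mem_nhds hI (polar_mem_An ht ω)), pm]
  match_scalars <;> ring

theorem hasDerivAt_qm (hI : IsOpen I) (h : ContDiffOn ℝ (2 : ℕ) U (An I)) (k : ℕ) {t : ℝ}
    (ht : t ∈ I) :
    HasDerivAt (qm U k) (-((k : ℂ) + 2) • qm U k t - (2 * (k : ℂ) + 2)⁻¹ • mdU (Lp2 U) k t) t := by
  have h1 := (((hasDerivAt_mdU hI (n := 1) h k ht).const_smul (k : ℂ)).sub
    (hasDerivAt_mdU hI (n := 0) (contDiffOn_Du hI (ContinuousLinearMap.id ℝ E4) h) k ht)).const_smul (2 * (k : ℂ) + 2)⁻¹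
  refine h1.congr_deriv ?_
  rw [mdU_eq fun ω => h.contDiffAt (An_mem_nhds hI (polar_mem_An ht ω)), qm]
  match_scalars <;> ring

theorem norm_mdU_le {t M : ℝ} (h : ∀ ω : S3, ‖U (Real.exp t • (ω : E4))‖ ≤ M) (k : ℕ) :
    ‖mdU U k t‖ ≤ 5 * M :=
  (norm_P_le k _).trans ((norm_toH_le _).trans (mul_le_mul_of_nonneg_left
    (norm_rst_le ((norm_nonneg _).trans (h (prj 0))) h) (by norm_num)))

theorem norm_inv_two_k (k : ℕ) : ‖(2 * (k : ℂ) + 2)⁻¹‖ = (2 * ((k : ℝ) + 1))⁻¹ := by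
  rw [norm_inv, show (2 * (k : ℂ) + 2) = ((2 * ((k : ℝ) + 1) : ℝ) : ℂ) by push_cast; ring,
    Complex.norm_real, Real.norm_of_nonneg (by positivity)]

theorem norm_pm_le (k : ℕ) (t : ℝ) :
    ‖pm U k t‖ ≤ ‖mdU U k t‖ + ((k : ℝ) + 1)⁻¹ * ‖mdU (Eu U) k t‖ := by
  rw [pm, norm_smul, norm_inv_two_k]
  refine (mul_le_mul_of_nonneg_left (norm_add_le _ _) (by positivity)).trans ?_
  rw [norm_smul, show ((k : ℂ) + 2) = (((k : ℝ) + 2 : ℝ) : ℂ) by push_cast; ring,
    Complex.norm_real, Real.norm_of_nonneg (by positivity), mul_add, ← mul_assoc]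
  refine add_le_add (mul_le_of_le_one_left (norm_nonneg _) ?_)
    (mul_le_mul_of_nonneg_right (inv_anti₀ (by positivity) ?_) (norm_nonneg _))
  · rw [inv_mul_le_iff₀ (by positivity)]; linarith [(Nat.cast_nonneg k : (0 : ℝ) ≤ k)]
  · linarith [(Nat.cast_nonneg k : (0 : ℝ) ≤ k)]

theorem norm_qm_le (k : ℕ) (t : ℝ) :
    ‖qm U k t‖ ≤ ‖mdU U k t‖ + ((k : ℝ) + 1)⁻¹ * ‖mdU (Eu U) k t‖ := by
  rw [qm, norm_smul, norm_inv_two_k]
  refine (mul_le_mul_of_nonneg_left (norm_sub_le _ _) (by positivity)).trans ?_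
  rw [norm_smul, Complex.norm_natCast, mul_add, ← mul_assoc]
  refine add_le_add (mul_le_of_le_one_left (norm_nonneg _) ?_)
    (mul_le_mul_of_nonneg_right (inv_anti₀ (by positivity) ?_) (norm_nonneg _))
  · rw [inv_mul_le_iff₀ (by positivity)]; linarith [(Nat.cast_nonneg k : (0 : ℝ) ≤ k)]
  · linarith [(Nat.cast_nonneg k : (0 : ℝ) ≤ k)]

theorem mdU_zero_of {t : ℝ} (h : ∀ ω : S3, U (Real.exp t • (ω : E4)) = 0) (k : ℕ) :
    mdU U k t = 0 := by
  have := norm_mdU_le (U := U) (t := t) (M := 0) (fun ω => by rw [h ω, norm_zero]) k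
  simpa using this

/-! ### harmonic functions -/

theorem flow_of_ode {v : ℝ → H} {m : ℝ} (hI : IsOpen I) (hc : IsPreconnected I)
    (h : ∀ t ∈ I, HasDerivAt v ((m : ℂ) • v t) t) {s t : ℝ} (hs : s ∈ I) (ht : t ∈ I) :
    v t = Real.exp (m * (t - s)) • v s := by
  have h1 : ∀ t ∈ I, HasDerivAt (fun t => Real.exp (-m * t) • v t) 0 t := fun t ht => by
    refine ((((hasDerivAt_id t).const_mul (-m)).exp).smul (h t ht)).congr_deriv ?_
    rw [Complex.coe_smul]
    match_scalars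
    ring
  have h2 := hI.is_const_of_deriv_eq_zero hc
    (fun t ht => (h1 t ht).differentiableAt.differentiableWithinAt)
    (fun t ht => (h1 t ht).deriv) ht hs
  have h3 := congrArg (fun z => Real.exp (m * t) • z) h2
  simp only [smul_smul, ← Real.exp_add] at h3
  rw [show m * t + -m * t = 0 by ring, Real.exp_zero, one_smul] at h3
  rw [h3]; congr 2; ring

theorem pm_harm (hI : IsOpen I) (hc : IsPreconnected I) (h : ContDiffOn ℝ (2 : ℕ) U (An I))
    (h0 : ∀ x ∈ An I, Lp2 U x = 0) (k : ℕ) {s t : ℝ} (hs : s ∈ I) (ht : t ∈ I) :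
    pm U k t = Real.exp (k * (t - s)) • pm U k s :=
  flow_of_ode hI hc (fun t ht => by
    simpa [mdU_zero_of fun ω => h0 _ (polar_mem_An ht ω)] using hasDerivAt_pm hI h k ht) hs ht

theorem qm_harm (hI : IsOpen I) (hc : IsPreconnected I) (h : ContDiffOn ℝ (2 : ℕ) U (An I))
    (h0 : ∀ x ∈ An I, Lp2 U x = 0) (k : ℕ) {s t : ℝ} (hs : s ∈ I) (ht : t ∈ I) :
    qm U k t = Real.exp (-(k + 2) * (t - s)) • qm U k s :=
  flow_of_ode hI hc (fun t ht => by
    simpa [mdU_zero_of fun ω => h0 _ (polar_mem_An ht ω)] using hasDerivAt_qm hI h k ht) hs ht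

theorem norm_mdU_grw {C σ t : ℝ} (hb : ∀ x ∈ An I, ‖U x‖ ≤ C * ‖x‖ ^ (-σ)) (ht : t ∈ I) (k : ℕ) :
    ‖mdU U k t‖ ≤ 5 * (C * Real.exp (-σ * t)) :=
  norm_mdU_le (fun ω => by
    have := hb _ (polar_mem_An ht ω)
    rwa [norm_smul_S3 (Real.exp_pos t), ← Real.exp_mul, mul_comm t] at this) k

/-- **outgoing at infinity** -/
theorem pm_zero_of_decay {T C σ : ℝ} (hσ : 0 < σ) (h : ContDiffOn ℝ (2 : ℕ) U (An (Ioi T)))
    (h0 : ∀ x ∈ An (Ioi T), Lp2 U x = 0) (hb : ∀ x ∈ An (Ioi T), ‖U x‖ ≤ C * ‖x‖ ^ (-σ))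
    (k : ℕ) {s : ℝ} (hs : T < s) : pm U k s = 0 := by
  have l1 : ∀ c : ℝ, 0 < c → Tendsto (fun t => Real.exp (-c * t)) atTop (𝓝 0) := fun c hc =>
    Real.tendsto_exp_atBot.comp (tendsto_id.const_mul_atTop_of_neg (by linarith))
  have l2 : Tendsto (fun t => 5 * (C * Real.exp (-σ * t)) +
      Real.exp (-2 * t) * (Real.exp (2 * s) * ‖qm U k s‖)) atTop (𝓝 0) := by
    simpa using (((l1 σ hσ).const_mul C).const_mul 5).add ((l1 2 two_pos).mul_const _)
  refine norm_le_zero_iff.1 (ge_of_tendsto l2 ?_)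
  filter_upwards [eventually_ge_atTop s] with t ht
  have ht' : t ∈ Ioi T := lt_of_lt_of_le hs ht
  have hk : (0 : ℝ) ≤ k := Nat.cast_nonneg k
  have e1 := pm_harm isOpen_Ioi isPreconnected_Ioi h h0 k hs ht'
  have e2 := qm_harm isOpen_Ioi isPreconnected_Ioi h h0 k hs ht'
  have e3 : ‖pm U k t‖ ≤ ‖mdU U k t‖ + ‖qm U k t‖ := by
    rw [← pm_add_qm]; simpa using norm_sub_le (pm U k t + qm U k t) (qm U k t)
  rw [e1, e2, norm_smul, norm_smul, Real.norm_eq_abs, Real.norm_eq_abs, Real.abs_exp,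
    Real.abs_exp] at e3
  have e4 : ‖pm U k s‖ ≤ Real.exp (k * (t - s)) * ‖pm U k s‖ :=
    le_mul_of_one_le_left (norm_nonneg _) (Real.one_le_exp (by nlinarith))
  refine e4.trans (e3.trans (add_le_add (norm_mdU_grw hb ht' k) ?_))
  rw [← mul_assoc, ← Real.exp_add]
  exact mul_le_mul_of_nonneg_right (Real.exp_le_exp.2 (by nlinarith)) (norm_nonneg _)

/-- **outgoing at a puncture** -/
theorem qm_zero_of_growth {T C σ : ℝ} (hσ : σ < 2) (h : ContDiffOn ℝ (2 : ℕ) U (An (Iio T)))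
    (h0 : ∀ x ∈ An (Iio T), Lp2 U x = 0) (hb : ∀ x ∈ An (Iio T), ‖U x‖ ≤ C * ‖x‖ ^ (-σ))
    (k : ℕ) {s : ℝ} (hs : s < T) : qm U k s = 0 := by
  have l1 : ∀ c : ℝ, 0 < c → Tendsto (fun t => Real.exp (c * t)) atBot (𝓝 0) := fun c hc =>
    Real.tendsto_exp_atBot.comp (tendsto_id.const_mul_atBot hc)
  have l2 : Tendsto (fun t => Real.exp ((2 - σ) * t) * (Real.exp (-2 * s) * (5 * C)) +
      Real.exp (2 * t) * (Real.exp (-2 * s) * ‖pm U k s‖)) atBot (𝓝 0) := by
    simpa using ((l1 (2 - σ) (by linarith)).mul_const _).add ((l1 2 two_pos).mul_const _)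
  refine norm_le_zero_iff.1 (ge_of_tendsto l2 ?_)
  filter_upwards [eventually_le_atBot s] with t ht
  have ht' : t ∈ Iio T := lt_of_le_of_lt ht hs
  have hk : (0 : ℝ) ≤ k := Nat.cast_nonneg k
  have e1 := pm_harm isOpen_Iio isPreconnected_Iio h h0 k hs ht'
  have e2 := qm_harm isOpen_Iio isPreconnected_Iio h h0 k ht' hs
  have e3 : ‖qm U k t‖ ≤ ‖mdU U k t‖ + ‖pm U k t‖ := by
    rw [← pm_add_qm]; simpa using norm_sub_le (pm U k t + qm U k t) (pm U k t)
  have e4 : ‖pm U k t‖ ≤ ‖pm U k s‖ := by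
    rw [e1, norm_smul, Real.norm_eq_abs, Real.abs_exp]
    exact mul_le_of_le_one_left (norm_nonneg _) (Real.exp_le_one_iff.2 (by nlinarith))
  have e5 : ‖qm U k s‖ ≤ Real.exp (2 * t + -2 * s) * ‖qm U k t‖ := by
    rw [e2, norm_smul, Real.norm_eq_abs, Real.abs_exp]
    exact mul_le_mul_of_nonneg_right (Real.exp_le_exp.2 (by nlinarith)) (norm_nonneg _)
  refine e5.trans ((mul_le_mul_of_nonneg_left (e3.trans (add_le_add (norm_mdU_grw hb ht' k) e4))
    (Real.exp_pos _).le).trans (le_of_eq ?_))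
  rw [show (2 - σ) * t = 2 * t + -σ * t by ring, Real.exp_add, Real.exp_add]
  ring

end Crest.Agent.N207.J
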