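import Crest.Agent.N250.H.Fix

/-!
Row 207 (helper80), block J.  Abstract gluing through a Newton interpolation of the middle piece:
high differences of the glued outputs are small.
-/

set_option autoImplicit false
set_option linter.unusedSectionVars false

open Metric Set Filter Topology Finset

noncomputable section

namespace Crest.Agent.N207.J

open Crest.Agent.N250.H

variable {Y Z W : Type*} [NormedAddCommGroup Y] [NormedSpace ℂ Y] [NormedAddCommGroup Z]
  [NormedSpace ℂ Z] [NormedAddCommGroup W] [NormedSpace ℂ W]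

/-- the `r`-th forward difference at `0` of a sequence -/
def dif {G : Type*} [AddCommGroup G] (r : ℕ) (a : ℕ → G) : G := (fwdDiff 1)^[r] a 0

theorem dif_eq {G : Type*} [AddCommGroup G] (r : ℕ) (a : ℕ → G) :
    dif r a = ∑ k ∈ range (r + 1), ((-1 : ℤ) ^ (r - k) * r.choose k) • a k := by
  rw [dif, fwdDiff_iter_eq_sum_shift]
  simp

theorem dif_eq' (r : ℕ) (a : ℕ → W) :
    dif r a = ∑ k ∈ range (r + 1), ((-1 : ℂ) ^ (r - k) * r.choose k) • a k := by
  rw [dif_eq]
  refine sum_congr rfl fun k _ => ?_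
  rw [← Int.cast_smul_eq_zsmul ℂ]
  push_cast
  rfl

theorem dif_congr {G : Type*} [AddCommGroup G] {r : ℕ} {a b : ℕ → G} (h : ∀ k ≤ r, a k = b k) :
    dif r a = dif r b := by
  rw [dif_eq, dif_eq]
  exact sum_congr rfl fun k hk => by rw [h k (Nat.lt_succ_iff.1 (mem_range.1 hk))]

theorem dif_zero {G : Type*} [AddCommGroup G] (a : ℕ → G) : dif 0 a = a 0 := rfl


theorem dif_fun {G : Type*} [AddCommGroup G] (r : ℕ) (g : ℂ → G) (h z : ℂ) :
    dif r (fun n => g (z + n * h)) = (fwdDiff h)^[r] g z := by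
  rw [dif_eq, fwdDiff_iter_eq_sum_shift]
  simp

theorem norm_dif_le {r : ℕ} {a : ℕ → W} {B : ℝ} (h : ∀ k ≤ r, ‖a k‖ ≤ B) :
    ‖dif r a‖ ≤ 2 ^ r * B := by
  rw [dif_eq']
  refine (norm_sum_le _ _).trans ?_
  calc ∑ k ∈ range (r + 1), ‖((-1 : ℂ) ^ (r - k) * r.choose k) • a k‖
      ≤ ∑ k ∈ range (r + 1), (r.choose k : ℝ) * B := by
        refine sum_le_sum fun k hk => ?_
        rw [norm_smul, norm_mul, norm_pow, norm_neg, norm_one, one_pow, one_mul,
          Complex.norm_natCast]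
        exact mul_le_mul_of_nonneg_left (h k (Nat.lt_succ_iff.1 (mem_range.1 hk))) (by positivity)
    _ = 2 ^ r * B := by
        rw [← sum_mul]
        congr 1
        exact_mod_cast Nat.sum_range_choose r

theorem newton (n : ℕ) (a : ℕ → W) : a n = ∑ r ∈ range (n + 1), (n.choose r : ℂ) • dif r a := by
  have := shift_eq_sum_fwdDiff_iter (h := 1) a n 0
  simp only [zero_add, smul_eq_mul, mul_one] at this
  rw [this]
  exact sum_congr rfl fun r _ => by rw [Nat.cast_smul_eq_nsmul]; rfl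

theorem diffOn_dif {E : Type*} [NormedAddCommGroup E] [NormedSpace ℂ E] {r : ℕ} {a : ℕ → E → W}
    {U : Set E} (h : ∀ k ≤ r, DifferentiableOn ℂ (a k) U) :
    DifferentiableOn ℂ (fun z => dif r fun n => a n z) U := by
  simp only [dif_eq']
  refine DifferentiableOn.fun_sum fun k hk => ?_
  exact (h k (Nat.lt_succ_iff.1 (mem_range.1 hk))).const_smul _

/-- Cauchy estimate for iterated differences -/
theorem fwd_iter_le (M : ℕ) {r s : ℝ} (hr : 1 < r) : ∀ {g : ℂ → W} {B : ℝ},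
    DifferentiableOn ℂ g (ball 0 (M * r + s)) → (∀ z ∈ ball (0 : ℂ) (M * r + s), ‖g z‖ ≤ B) →
    ∀ z ∈ ball (0 : ℂ) s, ‖(fwdDiff 1)^[M] g z‖ ≤ B * (2 / r) ^ M := by
  induction M with
  | zero => intro g B _ hB z hz; simpa using hB z (by simpa using hz)
  | succ M ih =>
    intro g B hd hB z hz
    have hs : ∀ w ∈ ball (0 : ℂ) (M * r + s), ball w r ⊆ ball 0 ((M + 1 : ℕ) * r + s) :=
      fun w hw => ball_subset_ball' (by rw [mem_ball] at hw; push_cast; linarith)
    have h1 : ∀ w : ℂ, w + 1 ∈ ball w r := fun w => by simpa using hr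
    rw [Function.iterate_succ_apply]
    have := ih (g := fwdDiff 1 g) (B := 2 * B / r) ?_ ?_ z hz
    · refine this.trans (le_of_eq ?_)
      ring
    · refine DifferentiableOn.sub (hd.comp (by fun_prop) fun w hw => hs w hw (h1 w)) ?_
      exact hd.mono fun w hw => hs w hw (mem_ball_self (by linarith))
    · intro w hw
      simpa [fwdDiff] using lip_le (hd.mono (hs w hw)) (fun v hv => hB v (hs w hw hv)) (h1 w)

/-- the binomial polynomial -/
def bn (r : ℕ) (v : ℂ) : ℂ := (∏ i ∈ range r, (v - i)) / r.factorial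

theorem bn_nat (r n : ℕ) : bn r n = n.choose r := by
  induction r with
  | zero => simp [bn]
  | succ r ih =>
    have h1 : bn (r + 1) n = bn r n * ((n : ℂ) - r) / (r + 1) := by
      have : (r.factorial : ℂ) ≠ 0 := by exact_mod_cast r.factorial_ne_zero
      have : (r : ℂ) + 1 ≠ 0 := by exact_mod_cast r.succ_ne_zero
      simp only [bn, prod_range_succ, Nat.factorial_succ]
      push_cast
      field_simp
    have h2 : (r : ℂ) + 1 ≠ 0 := by exact_mod_cast r.succ_ne_zero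
    rw [h1, ih, div_eq_iff h2]
    rcases le_or_gt r n with h | h
    · have := congrArg (Nat.cast : ℕ → ℂ) (Nat.choose_succ_right_eq n r)
      push_cast [Nat.cast_sub h] at this
      exact this.symm
    · rw [Nat.choose_eq_zero_of_lt h, Nat.choose_eq_zero_of_lt (by omega)]
      simp

theorem norm_bn_le {r M : ℕ} (h : r ≤ M) (v : ℂ) : ‖bn r v‖ ≤ (‖v‖ + M) ^ r := by
  rw [bn, norm_div, Complex.norm_natCast, norm_prod]
  have h1 : (1 : ℝ) ≤ r.factorial := by exact_mod_cast r.factorial_pos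
  refine (div_le_self (prod_nonneg fun _ _ => norm_nonneg _) h1).trans ?_
  calc ∏ i ∈ range r, ‖v - i‖ ≤ ∏ _i ∈ range r, (‖v‖ + M) := by
        refine prod_le_prod (fun _ _ => norm_nonneg _) fun i hi => ?_
        refine (norm_sub_le _ _).trans ?_
        rw [Complex.norm_natCast]
        have : (i : ℝ) ≤ M := by exact_mod_cast (mem_range.1 hi).le.trans h
        linarith
    _ = _ := by simp

theorem diff_bn (r : ℕ) : Differentiable ℂ (bn r) := by
  unfold bn
  refine Differentiable.div_const ?_ _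
  exact Differentiable.fun_finsetProd fun i _ => by fun_prop

/-- Schwarz along rays -/
theorem schwarz_ray {f : Y → Z} {ρ B : ℝ} {r : ℕ} (hd : DifferentiableOn ℂ f (ball 0 ρ))
    (hB : ∀ y ∈ ball (0 : Y) ρ, ‖f y‖ ≤ B) (h0 : f 0 = 0) {y : Y} (hy : y ∈ ball (0 : Y) ρ)
    (ho : (fun s : ℂ => f (s • y)) =o[𝓝 0] fun s => ‖s‖ ^ r) :
    ‖f y‖ ≤ B * (‖y‖ / ρ) ^ (r + 1) := by
  have hy' : ‖y‖ < ρ := by simpa using hy
  have hρ : 0 < ρ := (norm_nonneg _).trans_lt hy'
  rcases eq_or_ne y 0 with rfl | hne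
  · simp [h0]
  have hn : 0 < ‖y‖ := norm_pos_iff.2 hne
  have hm : ∀ s ∈ ball (0 : ℂ) (ρ / ‖y‖), s • y ∈ ball (0 : Y) ρ := fun s hs => by
    rw [mem_ball_zero_iff] at hs ⊢
    rwa [norm_smul, ← lt_div_iff₀ hn]
  have := Complex.dist_le_mul_div_pow_of_mapsTo_ball_of_isLittleO (f := fun s : ℂ => f (s • y))
    (c := 0) (z := 1) (R₁ := ρ / ‖y‖) (R₂ := B) (n := r) (hd.comp (by fun_prop) hm) ?_ ?_ ?_
  · simpa [h0] using this
  · intro s hs
    simpa [h0] using hB _ (hm s hs)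
  · simpa [h0] using ho
  · simpa using (one_lt_div hn).2 hy'

/-- **gluing through the Newton interpolation** -/
theorem glue_dif [CompleteSpace Y] {M : ℕ} {Mid : ℕ → Y → Z} {Ψ : Z → Y} {Out : Z → W}
    {ρ C0 e B : ℝ} (hC0 : 0 < C0) (he : 0 < e) (hρ : 20 * (2 * M + 1) * e < ρ)
    (hMd : ∀ n ≤ M, DifferentiableOn ℂ (Mid n) (ball 0 ρ))
    (hMb : ∀ n ≤ M, ∀ y ∈ ball (0 : Y) ρ, ‖Mid n y‖ ≤ C0 * ‖y‖)
    (hP : ∀ r, 1 ≤ r → r ≤ M → ∀ y ∈ ball (0 : Y) ρ,
      (fun s : ℂ => dif r fun n => Mid n (s • y)) =o[𝓝 0] fun s => ‖s‖ ^ r)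
    (hΨd : DifferentiableOn ℂ Ψ (ball 0 (11 * C0 * e)))
    (hΨb : ∀ z ∈ ball (0 : Z) (11 * C0 * e), ‖Ψ z‖ ≤ e)
    (hOd : DifferentiableOn ℂ Out (ball 0 (11 * C0 * e)))
    (hOb : ∀ z ∈ ball (0 : Z) (11 * C0 * e), ‖Out z‖ ≤ B)
    {y : ℕ → Y} (hy : ∀ n ≤ M, ‖y n‖ ≤ e ∧ Ψ (Mid n (y n)) = y n) :
    ‖dif M fun n => Out (Mid n (y n))‖ ≤ B * (40 * (2 * M + 1) * e / ρ) ^ M := by
  have hM0 : (0 : ℝ) ≤ M := Nat.cast_nonneg M
  have hρ0 : 0 < ρ := lt_trans (by positivity) hρ
  have h5 : 5 * e ≤ ρ := by nlinarith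
  set D : ℕ → Y → Z := fun r y => dif r fun n => Mid n y with hD
  have Dd : ∀ r ≤ M, DifferentiableOn ℂ (D r) (ball 0 ρ) := fun r hr =>
    diffOn_dif fun k hk => hMd k (hk.trans hr)
  have M0 : ∀ n ≤ M, Mid n 0 = 0 := fun n hn => by
    simpa using hMb n hn 0 (mem_ball_self hρ0)
  have Db : ∀ r ≤ M, ∀ y ∈ ball (0 : Y) ρ, ‖D r y‖ ≤ C0 * ‖y‖ * (2 * ‖y‖ / ρ) ^ r := by
    intro r hr y hy
    rcases Nat.eq_zero_or_pos r with rfl | h1
    · simpa [hD, dif_zero] using hMb 0 hr y hy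
    have := schwarz_ray (B := 2 ^ r * (C0 * ρ)) (r := r) (Dd r hr) (fun v hv =>
      norm_dif_le fun k hk => (hMb k (hk.trans hr) v hv).trans (by
        have : ‖v‖ < ρ := by simpa using hv
        gcongr)) ?_ hy (hP r h1 hr y hy)
    · refine this.trans (le_of_eq ?_)
      rw [pow_succ, mul_div_assoc, mul_pow]
      field_simp
    · have := norm_dif_le (r := r) (a := fun n => Mid n 0) (B := 0) fun k hk => by
        simp [M0 k (hk.trans hr)]
      simpa [hD] using this
  set Λ : ℝ := ρ / (20 * e) with hΛ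
  set r : ℝ := Λ / (2 * M + 1) with hr
  have r1 : 1 < r := by
    rw [hr, hΛ, div_div, one_lt_div (by positivity)]
    linarith
  have hΛr : Λ = (2 * M + 1) * r := by rw [hr]; field_simp
  set U : Set ℂ := ball 0 (M * r + r) with hU
  have hUΛ : ∀ v ∈ U, ‖v‖ + M ≤ Λ := fun v hv => by
    have : ‖v‖ < M * r + r := by simpa [hU] using hv
    nlinarith
  set N : ℂ → Y → Z := fun v y => ∑ r ∈ range (M + 1), bn r v • D r y with hN
  have sub5 : ball (0 : Y) (e + 4 * e) ⊆ ball 0 ρ := ball_subset_ball (by linarith)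
  have Nb : ∀ v ∈ U, ∀ y ∈ ball (0 : Y) (e + 4 * e), N v y ∈ ball (0 : Z) (11 * C0 * e) := by
    intro v hv y hy
    have hy' : ‖y‖ < 5 * e := by have := mem_ball_zero_iff.1 hy; linarith
    rw [mem_ball_zero_iff]
    refine lt_of_le_of_lt (norm_sum_le _ _) ?_
    calc ∑ r ∈ range (M + 1), ‖bn r v • D r y‖
        ≤ ∑ r ∈ range (M + 1), C0 * (5 * e) * (1 / 2 : ℝ) ^ r := by
          refine sum_le_sum fun j hj => ?_
          have hj' := Nat.lt_succ_iff.1 (mem_range.1 hj)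
          rw [norm_smul]
          have a1 : ‖bn j v‖ ≤ Λ ^ j :=
            (norm_bn_le hj' v).trans (pow_le_pow_left₀ (by positivity) (hUΛ v hv) j)
          have a2 : ‖D j y‖ ≤ C0 * (5 * e) * (2 * (5 * e) / ρ) ^ j :=
            (Db j hj' y (sub5 hy)).trans (by gcongr)
          calc ‖bn j v‖ * ‖D j y‖ ≤ Λ ^ j * (C0 * (5 * e) * (2 * (5 * e) / ρ) ^ j) := by
                gcongr
            _ = C0 * (5 * e) * (Λ * (2 * (5 * e) / ρ)) ^ j := by rw [mul_pow]; ring
            _ = _ := by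
                congr 2
                rw [hΛ]; field_simp; norm_num
      _ ≤ C0 * (5 * e) * 2 := by
          rw [← mul_sum]
          exact mul_le_mul_of_nonneg_left (sum_geometric_two_le _) (by positivity)
      _ < _ := by nlinarith [mul_pos hC0 he]
  have Nd : DifferentiableOn ℂ (fun p : ℂ × Y => N p.1 p.2) (U ×ˢ ball 0 (e + 4 * e)) := by
    refine DifferentiableOn.fun_sum fun j hj => DifferentiableOn.smul ?_ ?_
    · exact ((diff_bn j).comp differentiable_fst).differentiableOn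
    · exact (Dd j (Nat.lt_succ_iff.1 (mem_range.1 hj))).comp differentiableOn_snd
        fun p hp => sub5 hp.2
  have Td : DifferentiableOn ℂ (fun p : ℂ × Y => Ψ (N p.1 p.2)) (U ×ˢ ball 0 (e + 4 * e)) :=
    hΨd.comp Nd fun p hp => Nb p.1 hp.1 p.2 hp.2
  have hc : ∀ v ∈ U, Ctr (fun y => Ψ (N v y)) (closedBall 0 e) (2 * e / (4 * e)) := fun v hv =>
    ctr_of_small (by positivity)
      (Td.comp (f := fun y => (v, y)) (by fun_prop) fun y hy => ⟨hv, hy⟩)
      (fun y hy => by simpa using hΨb _ (Nb v hv y hy)) le_rfl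
  have k1 : 2 * e / (4 * e) < 1 := by rw [div_lt_one (by positivity)]; linarith
  have cs : closedBall (0 : Y) e ⊆ ball 0 (e + 4 * e) := closedBall_subset_ball (by linarith)
  obtain ⟨x, xd, hx⟩ := exists_fix_hol (T := fun v y => Ψ (N v y)) isOpen_ball (by positivity) k1
    he.le hc (fun v hv y hy => (⟨hv, cs hy⟩ : (v, y) ∈ U ×ˢ ball 0 (e + 4 * e))) Td
  have gd : DifferentiableOn ℂ (fun v => Out (N v (x v))) U :=
    hOd.comp (Nd.comp (f := fun v => (v, x v)) (differentiableOn_id.prodMk xd)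
      fun v hv => ⟨hv, cs (hx v hv).1⟩) fun v hv => Nb v hv _ (cs (hx v hv).1)
  have key := fwd_iter_le M r1 gd (fun v hv => hOb _ (Nb v hv _ (cs (hx v hv).1))) 0
    (mem_ball_self (by linarith))
  rw [← dif_fun] at key
  have Nn : ∀ n ≤ M, ∀ y, N n y = Mid n y := by
    intro n hn y
    rw [newton n fun n => Mid n y]
    symm
    refine (sum_subset (range_subset_range.2 (by omega)) fun j _ hj => ?_).trans
      (sum_congr rfl fun j _ => by rw [bn_nat])
    rw [Nat.choose_eq_zero_of_lt (by simpa using hj)]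
    simp
  have e1 : 2 / r = 40 * (2 * M + 1) * e / ρ := by
    rw [hr, hΛ]; field_simp; norm_num
  rw [← e1]
  refine le_of_eq_of_le (congrArg _ (dif_congr fun n hn => ?_)) key
  have hn' : (n : ℂ) ∈ U := by
    have : (n : ℝ) ≤ M := by exact_mod_cast hn
    rw [hU, mem_ball_zero_iff, Complex.norm_natCast]
    nlinarith
  have : x n = y n := (hc n hn').uniq k1 (hx n hn').1 (by simpa using (hy n hn).1) (hx n hn').2
    (by simpa [Nn n hn] using (hy n hn).2)
  simp [this, Nn n hn]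

end Crest.Agent.N207.J
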