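import Crest.Agent.N207.J.As3
import Crest.Agent.N207.L.Defs

-- ▼ part N207/J/As4
section

/-! # N207/J/As4 (helper71): Cartesian jets, proper elements, Green assembly -/

set_option autoImplicit false
set_option maxHeartbeats 400000
set_option linter.unusedSectionVars false
open Metric Topology Filter
open Crest.Agent.R246.Zon797
open Crest.Agent.N207.L (Jx Dd cj)

noncomputable section

namespace Crest.Agent.N207.J

theorem card_Pr4 : Fintype.card (Pr 4) = 6 := by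
  have := sum_Pr4 (fun _ => (1 : ℕ))
  simpa using this

theorem norm_div_k1 {k : ℕ} {z : ℂ} {c : ℝ} (h : ‖z‖ ≤ c * (k + 1)) : ‖z / ((k : ℂ) + 1)‖ ≤ c := by
  rw [norm_div, norm_k1, div_le_iff₀ (by positivity)]; exact h

theorem bd_s1 (k : ℕ) : ‖(k : ℂ) / ((k : ℂ) + 1)‖ ≤ 1 := norm_div_k1 (by simp)

theorem bd_s2 (k : ℕ) : ‖((k : ℂ) + 2) / ((k : ℂ) + 1)‖ ≤ 2 := norm_div_k1 (by
  rw [show (k : ℂ) + 2 = ((k + 2 : ℕ) : ℂ) by push_cast; ring, Complex.norm_natCast]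
  push_cast; linarith [(Nat.cast_nonneg k : (0 : ℝ) ≤ k)])

theorem bd_s1sq (k : ℕ) : ‖((k : ℂ) / ((k : ℂ) + 1)) ^ 2‖ ≤ 1 := by
  rw [norm_pow]; exact pow_le_one₀ (norm_nonneg _) (bd_s1 k)

theorem bd_s2sq (k : ℕ) : ‖(((k : ℂ) + 2) / ((k : ℂ) + 1)) ^ 2‖ ≤ 4 := by
  rw [norm_pow]; nlinarith [bd_s2 k, norm_nonneg (((k : ℂ) + 2) / ((k : ℂ) + 1))]

theorem md_succ {F : Type} [NormedAddCommGroup F] [NormedSpace ℂ F] (m : ℕ) (o : ℂ)
    (e : F →L[ℂ] H) (x : CL F) (k : ℕ) : md m o e x k = ((k : ℂ) + 1) • md (m + 1) o e x k := by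
  rw [md, md, smul_smul, wn_succ]
  congr 1
  have := wn_ne m k
  have := k1_ne k
  field_simp

/-- the bound of the jet operator -/
def KJ (C : ℝ) : ℝ := 10 ^ 12 * C ^ 5

namespace Layer
variable {Pt F1 F2 : Type} [NormedAddCommGroup F1] [NormedSpace ℂ F1] [CompleteSpace F1]
  [NormedAddCommGroup F2] [NormedSpace ℂ F2] [CompleteSpace F2] {C : ℝ} (Y : Layer Pt F1 F2 C)

/-- `r ∂_a` from `(x, x')` at levels `(m+1, m)` to level `m` -/
def dd (m : ℕ) (a : Fin 4) : CL F1 × CL F1 →L[ℂ] CL F1 :=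
  Y.ml m (xc a) ∘L ContinuousLinearMap.snd ℂ _ _ +
    ∑ c : Pr 4, (Y.ml m (rx c a) ∘L Y.rot c) ∘L ContinuousLinearMap.fst ℂ _ _

theorem dd_apply (m : ℕ) (a : Fin 4) (x x1 : CL F1) :
    Y.dd m a (x, x1) = Y.ml m (xc a) x1 + ∑ c : Pr 4, Y.ml m (rx c a) (Y.rot c x) := by
  simp [dd]

theorem syn_dd {m : ℕ} (hm : 4 ≤ m) (a : Fin 4) (p : Pt) (x x1 : CL F1) :
    Y.syn1 m p (Y.dd m a (x, x1)) = Dd a (Y.syn1 (m + 1) p x) (Y.syn1 m p x1) := by
  rw [dd_apply, map_add, map_sum, Y.syn_ml hm (xc_mem_E a), Dd]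
  congr 1
  exact Finset.sum_congr rfl fun c _ => by
    rw [Y.syn_ml hm (rx_mem_E c a), Y.syn_rot (by omega)]

theorem norm_ml_apply {m : ℕ} (hm : 4 ≤ m) (hm' : m ≤ 5) {φ : CS} (hφ : ‖φ‖ ≤ 1) (x : CL F1) :
    ‖Y.ml m φ x‖ ≤ 30720 * C * ‖x‖ := by
  have hC := Y.C_pos
  refine (Y.ml m φ).le_of_opNorm_le ((Y.norm_ml hm hφ).trans ?_) x
  have : (4 : ℝ) ^ m ≤ 4 ^ 5 := pow_le_pow_right₀ (by norm_num) hm'
  nlinarith

theorem norm_dd_apply {m : ℕ} (hm : 4 ≤ m) (hm' : m ≤ 5) (a : Fin 4) {x x1 : CL F1} {M : ℝ}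
    (hx : ‖x‖ ≤ M) (hx1 : ‖x1‖ ≤ M) : ‖Y.dd m a (x, x1)‖ ≤ 215040 * C ^ 2 * M := by
  have hC := Y.C_pos
  have h1 := Y.one_le
  have hM : 0 ≤ M := (norm_nonneg _).trans hx
  rw [dd_apply]
  have e1 : ‖Y.ml m (xc a) x1‖ ≤ 30720 * C ^ 2 * M :=
    (Y.norm_ml_apply hm hm' (norm_xc_le a) x1).trans (by
      calc _ ≤ 30720 * C * M := by gcongr
        _ ≤ _ := by gcongr; nlinarith)
  have e2 : ∀ c : Pr 4, ‖Y.ml m (rx c a) (Y.rot c x)‖ ≤ 30720 * C ^ 2 * M := fun c =>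
    (Y.norm_ml_apply hm hm' (norm_rx_le c a) _).trans (by
      have := (Y.rot c).le_of_opNorm_le (Y.norm_rot c) x
      calc _ ≤ 30720 * C * (C * M) := by gcongr; exact this.trans (by gcongr)
        _ = _ := by ring)
  refine (norm_add_le _ _).trans ((add_le_add e1 ((norm_sum_le _ _).trans
    (Finset.sum_le_sum fun c _ => e2 c))).trans_eq ?_)
  rw [Finset.sum_const, Finset.card_univ, card_Pr4]; simp; ring

/-- `u = p + q` (level 6) -/
def u0 : CL F1 × CL F1 × CL F2 →L[ℂ] CL F1 :=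
  ContinuousLinearMap.fst ℂ _ _ + ContinuousLinearMap.fst ℂ _ _ ∘L ContinuousLinearMap.snd ℂ _ _
/-- `u' = k p - (k+2) q` (level 5) -/
def u1 : CL F1 × CL F1 × CL F2 →L[ℂ] CL F1 :=
  sc F1 (fun k => (k : ℂ) / ((k : ℂ) + 1)) ∘L ContinuousLinearMap.fst ℂ _ _ -
    sc F1 (fun k => ((k : ℂ) + 2) / ((k : ℂ) + 1)) ∘L
      (ContinuousLinearMap.fst ℂ _ _ ∘L ContinuousLinearMap.snd ℂ _ _)
/-- `u'' = k² p + (k+2)² q + F` (level 4) -/
def u2 : CL F1 × CL F1 × CL F2 →L[ℂ] CL F1 :=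
  sc F1 (fun k => ((k : ℂ) / ((k : ℂ) + 1)) ^ 2) ∘L ContinuousLinearMap.fst ℂ _ _ +
    sc F1 (fun k => (((k : ℂ) + 2) / ((k : ℂ) + 1)) ^ 2) ∘L
      (ContinuousLinearMap.fst ℂ _ _ ∘L ContinuousLinearMap.snd ℂ _ _) +
    Y.incl ∘L (ContinuousLinearMap.snd ℂ _ _ ∘L ContinuousLinearMap.snd ℂ _ _)

theorem u1_apply (p q : CL F1) (f : CL F2) : u1 (p, q, f) =
    sc F1 (fun k => (k : ℂ) / ((k : ℂ) + 1)) p - sc F1 (fun k => ((k : ℂ) + 2) / ((k : ℂ) + 1)) q :=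
  rfl
theorem u2_apply (p q : CL F1) (f : CL F2) : Y.u2 (p, q, f) =
    sc F1 (fun k => ((k : ℂ) / ((k : ℂ) + 1)) ^ 2) p +
      sc F1 (fun k => (((k : ℂ) + 2) / ((k : ℂ) + 1)) ^ 2) q + Y.incl f := rfl

theorem md_u0 (o : ℂ) (e : F1 →L[ℂ] H) (p q : CL F1) (f : CL F2) (k : ℕ) :
    md 6 o e (u0 (p, q, f)) k = md 6 o e p k + md 6 o e q k := md_add _ _ _ _ _ _

theorem md_u1 (o : ℂ) (e : F1 →L[ℂ] H) (p q : CL F1) (f : CL F2) (k : ℕ) :
    md 5 o e (u1 (p, q, f)) k = (k : ℂ) • md 6 o e p k - ((k : ℂ) + 2) • md 6 o e q k := by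
  rw [u1_apply, md_sub, md_sc _ _ _ bd_s1, md_sc _ _ _ bd_s2, md_succ 5 o e p, md_succ 5 o e q,
    smul_smul, smul_smul, div_mul_cancel₀ _ (k1_ne k), div_mul_cancel₀ _ (k1_ne k)]

theorem md_u2 (x : Pt) (p q : CL F1) (f : CL F2) (k : ℕ) :
    md 4 (Y.om x) (Y.ev1 x) (Y.u2 (p, q, f)) k = (k : ℂ) ^ 2 • md 6 (Y.om x) (Y.ev1 x) p k +
      ((k : ℂ) + 2) ^ 2 • md 6 (Y.om x) (Y.ev1 x) q k + md 4 (Y.om x) (Y.ev2 x) f k := by
  have := k1_ne k
  rw [u2_apply, md_add, md_add, md_sc _ _ _ bd_s1sq, md_sc _ _ _ bd_s2sq, Y.md_incl,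
    md_succ 4 _ _ p, md_succ 4 _ _ q, md_succ 5 _ _ p, md_succ 5 _ _ q]
  simp only [smul_smul]
  congr 3 <;> field_simp

include Y in
theorem norm_u (z : CL F1 × CL F1 × CL F2) :
    ‖u0 z‖ ≤ 6 * C * ‖z‖ ∧ ‖u1 z‖ ≤ 6 * C * ‖z‖ ∧ ‖Y.u2 z‖ ≤ 6 * C * ‖z‖ := by
  obtain ⟨p, q, f⟩ := z
  have h1 := Y.one_le
  set M := ‖(p, q, f)‖
  have hp : ‖p‖ ≤ M := norm_fst_le (p, q, f)
  have hq : ‖q‖ ≤ M := (norm_fst_le (q, f)).trans (norm_snd_le (p, q, f))
  have hf : ‖f‖ ≤ M := (norm_snd_le (q, f)).trans (norm_snd_le (p, q, f))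
  have hM : 0 ≤ M := norm_nonneg _
  have hCM : M ≤ C * M := le_mul_of_one_le_left hM h1
  refine ⟨(norm_add_le p q).trans (by nlinarith), (norm_sub_le _ _).trans ?_,
    (norm_add₃_le).trans ?_⟩
  · have a := (sc F1 _).le_of_opNorm_le (norm_sc_le bd_s1) p
    have b := (sc F1 _).le_of_opNorm_le (norm_sc_le bd_s2) q
    exact (add_le_add a b).trans (by nlinarith)
  · have a := (sc F1 _).le_of_opNorm_le (norm_sc_le bd_s1sq) p
    have b := (sc F1 _).le_of_opNorm_le (norm_sc_le bd_s2sq) q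
    have c := Y.incl.le_of_opNorm_le Y.norm_incl f
    have d : C * ‖f‖ ≤ C * M := by gcongr
    exact (add_le_add_three a b c).trans (by nlinarith)

/-- the Cartesian jets (level 4) of `(p, q, F)` (levels 6, 6, 4) -/
def jetc : Jx → (CL F1 × CL F1 × CL F2 →L[ℂ] CL F1)
  | none => lw F1 2 ∘L u0
  | some (.inl a) => lw F1 1 ∘L (Y.dd 5 a ∘L u0.prod u1)
  | some (.inr e) => Y.dd 4 e.1 ∘L (Y.dd 5 e.2 ∘L u0.prod u1).prod (Y.dd 4 e.2 ∘L u1.prod Y.u2) -
      Y.ml 4 (xc e.1) ∘L (lw F1 1 ∘L (Y.dd 5 e.2 ∘L u0.prod u1))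

theorem syn_jetc (j : Jx) (x : Pt) (z : CL F1 × CL F1 × CL F2) : Y.syn1 4 x (Y.jetc j z) =
    cj (Y.syn1 6 x (u0 z)) (Y.syn1 5 x (u1 z)) (Y.syn1 4 x (Y.u2 z)) j := by
  have hl : ∀ (d : ℕ) (v : CL F1), Y.syn1 4 x (lw F1 d v) = Y.syn1 (4 + d) x v := fun d v =>
    syn_lw (by norm_num) (Y.om_le x) d _ v
  rcases j with _ | a | e
  · exact hl 2 _
  · exact (hl 1 _).trans (Y.syn_dd (by norm_num) a x _ _)
  · simp only [jetc, cj, sub_apply, ContinuousLinearMap.comp_apply,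
      ContinuousLinearMap.prod_apply, map_sub]
    rw [Y.syn_dd le_rfl, Y.syn_dd le_rfl, Y.syn_dd (by norm_num), Y.syn_ml le_rfl (xc_mem_E _), hl,
      Y.syn_dd (by norm_num)]

theorem norm_jetc_apply (j : Jx) (z : CL F1 × CL F1 × CL F2) : ‖Y.jetc j z‖ ≤ KJ C * ‖z‖ := by
  obtain ⟨h0, h1, h2⟩ := Y.norm_u z
  have hC := Y.one_le
  have hz := norm_nonneg z
  have hl : ∀ (d : ℕ) (v : CL F1), ‖lw F1 d v‖ ≤ ‖v‖ := fun d v => by
    simpa using (lw F1 d).le_of_opNorm_le (norm_lw_le d) v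
  have p1 : C * ‖z‖ ≤ C ^ 5 * ‖z‖ := by gcongr; exact le_self_pow₀ hC (by norm_num)
  have p3 : C ^ 3 * ‖z‖ ≤ C ^ 5 * ‖z‖ := by gcongr; norm_num
  have p4 : C ^ 4 * ‖z‖ ≤ C ^ 5 * ‖z‖ := by gcongr; norm_num
  have p5 : 0 ≤ C ^ 5 * ‖z‖ := by positivity
  rcases j with _ | a | e
  · exact (hl 2 _).trans (h0.trans (by unfold KJ; nlinarith))
  · exact (hl 1 _).trans ((Y.norm_dd_apply (by norm_num) le_rfl a h0 h1).trans
      (by unfold KJ; nlinarith))
  · have a := Y.norm_dd_apply (m := 5) (by norm_num) le_rfl e.2 h0 h1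
    have b := Y.norm_dd_apply (m := 4) le_rfl (by norm_num) e.2 h1 h2
    have c := Y.norm_dd_apply (m := 4) le_rfl (by norm_num) e.1 a b
    have d := (Y.norm_ml_apply (m := 4) le_rfl (by norm_num) (norm_xc_le e.1) _).trans
      (mul_le_mul_of_nonneg_left ((hl 1 _).trans a) (by positivity))
    exact (norm_sub_le _ _).trans ((add_le_add c d).trans (by unfold KJ; nlinarith))

/-- all jets -/
def jet : CL F1 × CL F1 × CL F2 →L[ℂ] (Jx → CL F1) := ContinuousLinearMap.pi Y.jetc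

@[simp] theorem jet_apply (z : CL F1 × CL F1 × CL F2) (j : Jx) : Y.jet z j = Y.jetc j z := rfl

include Y in
theorem KJ_pos : 0 < KJ C := by have := Y.C_pos; unfold KJ; positivity


/-! ### proper elements -/

/-- elements whose `k`-th entry has values in the `k`-th mode -/
def prop2 : Submodule ℂ (CL F2) where
  carrier := {f | ∀ k x, P k (Y.ev2 x (f k)) = Y.ev2 x (f k)}
  add_mem' := fun {f g} hf hg k x => by simp [hf k x, hg k x]
  zero_mem' := fun k x => by simp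
  smul_mem' := fun c f hf k x => by simp [hf k x]

theorem mem_prop2 {f : CL F2} :
    f ∈ Y.prop2 ↔ ∀ k x, P k (Y.ev2 x (f k)) = Y.ev2 x (f k) := Iff.rfl

theorem isClosed_prop2 : IsClosed (Y.prop2 : Set (CL F2)) := by
  have e : (Y.prop2 : Set (CL F2)) = ⋂ k, ⋂ x, {f | P k (Y.ev2 x (f k)) = Y.ev2 x (f k)} := by
    ext f; simp [mem_prop2]
  rw [e]
  refine isClosed_iInter fun k => isClosed_iInter fun x => ?_
  have hc : Continuous fun f : CL F2 => Y.ev2 x (f k) :=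
    (Y.ev2 x).continuous.comp (lp.evalCLM ℂ (fun _ : ℕ => F2) 2 k).continuous
  exact isClosed_eq ((P k).continuous.comp hc) hc

theorem mul_mem_prop2 (u v : CL F1) : Y.mul u v ∈ Y.prop2 := fun j x => by
  have h1 := (Y.hasSum_mul u v j).mapL (Y.ev2 x)
  have h2 := h1.mapL (P j)
  refine h2.unique ((congrArg (HasSum · _) (funext fun q => ?_)).mp h1)
  have h := Y.ev_mulE j q.1 q.2 (u q.1) (v q.2) x
  have h' := congrArg (P j) h
  rw [map_smul, map_smul, P_mulH, ← h] at h'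
  rw [map_smul, map_smul, smul_right_injective _ (pow_ne_zero j (Y.om_ne x)) h']

/-- proper sources are determined by their true functions -/
theorem ext_syn2 {m : ℕ} (hm : 3 ≤ m) {f g : CL F2} (hf : f ∈ Y.prop2) (hg : g ∈ Y.prop2)
    (h : ∀ x, Y.syn2 m x f = Y.syn2 m x g) : f = g :=
  CL.ext fun k => Y.ext2 fun x => by
    have h1 := congrArg (fun v => P k (toH v)) (h x)
    simp only [syn2, P_syn hm (Y.om_le x), hf k x, hg k x] at h1
    exact smul_right_injective _ (div_ne_zero (pow_ne_zero _ (Y.om_ne x)) (wn_ne m k)) h1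

end Layer

/-! ### Green operators and free solutions on `CL` -/

namespace Grn
variable {F1 F2 : Type} [NormedAddCommGroup F1] [NormedSpace ℂ F1]
  [NormedAddCommGroup F2] [NormedSpace ℂ F2] {C : ℝ} (G : Grn F1 F2 C)

theorem half_bd {g : ℕ → F2 →L[ℂ] F1} (h : ∀ k, ‖g k‖ ≤ C / (k + 1)) (k : ℕ) :
    ‖(((k : ℂ) + 1) / 2) • g k‖ ≤ C / 2 := by
  rw [norm_smul, norm_div, norm_k1, Complex.norm_ofNat]
  refine (mul_le_mul_of_nonneg_left (h k) (by positivity)).trans_eq ?_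
  field_simp

/-- free decaying part (level 6 to level 6) -/
def EM : CL H →L[ℂ] CL F1 := dg G.em
/-- free growing part -/
def EP : CL H →L[ℂ] CL F1 := dg G.ep
/-- `gm k / (2k+2)` from level 4 to level 6 -/
def GM : CL F2 →L[ℂ] CL F1 := dg fun k => (((k : ℂ) + 1) / 2) • G.gm k
/-- `gp k / (2k+2)` from level 4 to level 6 -/
def GP : CL F2 →L[ℂ] CL F1 := dg fun k => (((k : ℂ) + 1) / 2) • G.gp k

theorem EM_apply (a : CL H) (k : ℕ) : G.EM a k = G.em k (a k) := dg_apply G.em_le a k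
theorem EP_apply (a : CL H) (k : ℕ) : G.EP a k = G.ep k (a k) := dg_apply G.ep_le a k
theorem GM_apply (f : CL F2) (k : ℕ) : G.GM f k = (((k : ℂ) + 1) / 2) • G.gm k (f k) :=
  dg_apply (half_bd G.gm_le) f k
theorem GP_apply (f : CL F2) (k : ℕ) : G.GP f k = (((k : ℂ) + 1) / 2) • G.gp k (f k) :=
  dg_apply (half_bd G.gp_le) f k
theorem norm_EM : ‖G.EM‖ ≤ C := norm_dg_le G.em_le
theorem norm_EP : ‖G.EP‖ ≤ C := norm_dg_le G.ep_le
theorem norm_GM : ‖G.GM‖ ≤ C / 2 := norm_dg_le (half_bd G.gm_le)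
theorem norm_GP : ‖G.GP‖ ≤ C / 2 := norm_dg_le (half_bd G.gp_le)

/-- the weight bookkeeping: `(k+1)/2 / (k+1)^6 = (2k+2)⁻¹ / (k+1)^4` -/
theorem half_wn (k : ℕ) : (wn 6 k)⁻¹ * (((k : ℂ) + 1) / 2) = (2 * (k : ℂ) + 2)⁻¹ * (wn 4 k)⁻¹ := by
  have := k1_ne k
  rw [show 2 * (k : ℂ) + 2 = 2 * (k + 1) by ring, wn, wn]
  field_simp

variable {Z : Type*} [NormedAddCommGroup Z] [NormedSpace ℂ Z] [CompleteSpace F1] {U : Set Z}


end Grn

end Crest.Agent.N207.J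
end
private theorem rz_167e9b2d55 : type_of% @_root_.Crest.Agent.N207.J.Layer.jetc.eq_1 := @_root_.Crest.Agent.N207.J.Layer.jetc.eq_1 -- L156
end

-- ▼ part N207/J/As5

/-! # N207/J/As5 (helper71): the layer of bounded continuous functions with weights `w, om`;
dictionary `md/syn` ↔ `tru/val` of `L/Defs` -/

set_option autoImplicit false
set_option maxHeartbeats 400000
set_option linter.unusedSectionVars false
open Metric Topology Filter BoundedContinuousFunction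
open Crest.Agent.N207.L (BH Md tru trD val dt jets cj Jx)

noncomputable section

namespace Crest.Agent.N207.J

/-- hypotheses on the weights -/
structure Wts (w om : ℝ → ℝ) (o : ℝ) : Prop where
  wc : Continuous w
  w0 : ∀ x, 0 < w x
  w1 : ∀ x, w x ≤ 1
  oc : Continuous om
  op : 0 < o
  o0 : ∀ x, o ≤ om x
  o1 : ∀ x, om x ≤ 1

theorem _root_.Crest.Agent.N207.L.Pth.Ok.wts {γ : L.Pth} {C o : ℝ} (h : γ.Ok C o) (ho : 0 < o) :
    Wts γ.w γ.om o := ⟨h.wc, h.w0, h.w1, h.oc, ho, h.o0, h.o1⟩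

/-- weighted evaluation -/
def evW (g : ℝ → ℝ) (x : ℝ) : BH →L[ℂ] H := (g x : ℂ) • evalCLM ℂ x

@[simp] theorem evW_apply (g : ℝ → ℝ) (x : ℝ) (f : BH) : evW g x f = (g x : ℂ) • f x := rfl

theorem exists_BH {g : ℝ → H} (hg : Continuous g) {c : ℝ} (hc : 0 ≤ c) (h : ∀ x, ‖g x‖ ≤ c) :
    ∃ f : BH, ‖f‖ ≤ c ∧ ∀ x, f x = g x :=
  ⟨ofNormedAddCommGroup g hg c h, norm_ofNormedAddCommGroup_le hg hc h, fun _ => rfl⟩

namespace Wts
variable {w om : ℝ → ℝ} {o : ℝ} (h : Wts w om o)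
include h

theorem om_pos (x : ℝ) : 0 < om x := h.op.trans_le (h.o0 x)

theorem one_le : 1 ≤ o⁻¹ := (one_le_inv₀ h.op).2 ((h.o0 0).trans (h.o1 0))

theorem norm_om (x : ℝ) : ‖(om x : ℂ)‖ = om x := by
  rw [Complex.norm_real, Real.norm_of_nonneg (h.om_pos x).le]

theorem norm_w (x : ℝ) : ‖(w x : ℂ)‖ = w x := by
  rw [Complex.norm_real, Real.norm_of_nonneg (h.w0 x).le]

theorem zpow_le (x : ℝ) {j : ℤ} (hj : -1 ≤ j) : ‖(om x : ℂ) ^ j‖ ≤ o⁻¹ := by
  rw [norm_zpow, h.norm_om]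
  rcases eq_or_lt_of_le hj with rfl | hj
  · rw [zpow_neg_one]; exact inv_anti₀ h.op (h.o0 x)
  · exact (zpow_le_one₀ (h.om_pos x) (h.o1 x) (by omega)).trans h.one_le

theorem inj {g : ℝ → ℝ} (hg : ∀ x, 0 < g x) (f : BH) (hf : ∀ x, evW g x f = 0) : f = 0 := by
  ext1 x
  have := hf x
  rw [evW_apply, smul_eq_zero] at this
  exact this.resolve_left (by exact_mod_cast (hg x).ne')

/-- the layer: true values `w x • f x` (solutions), `w x ^ 2 • f x` (sources) -/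
def bcf : Layer ℝ BH BH o⁻¹ where
  one_le := h.one_le
  om x := om x
  om_ne x := by exact_mod_cast (h.om_pos x).ne'
  om_le x := by rw [h.norm_om]; exact h.o1 x
  ev1 := evW w
  ev2 := evW fun x => w x ^ 2
  ev1_le x f := by
    rw [evW_apply, norm_smul, h.norm_w]
    exact mul_le_mul ((h.w1 x).trans h.one_le) (f.norm_coe_le_norm x) (norm_nonneg _)
      (inv_pos.2 h.op).le
  inj1 := h.inj h.w0
  inj2 := h.inj fun x => pow_pos (h.w0 x) 2
  lin_ex A j hj f := by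
    have hc : Continuous fun x => (om x : ℂ) ^ j • A (f x) :=
      ((Complex.continuous_ofReal.comp h.oc).zpow₀ j fun x => Or.inl (by
        simpa using (h.om_pos x).ne')).smul (A.continuous.comp f.continuous)
    have := h.op
    obtain ⟨g, h1, h2⟩ := exists_BH hc (c := o⁻¹ * ‖A‖ * ‖f‖) (by positivity) fun x => by
      rw [norm_smul, mul_assoc]
      exact mul_le_mul (h.zpow_le x hj) ((A.le_opNorm _).trans (by
        gcongr; exact f.norm_coe_le_norm x)) (norm_nonneg _) (by positivity)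
    exact ⟨g, h1, fun x => by rw [evW_apply, evW_apply, h2, map_smul, smul_comm]⟩
  bil_ex β j f g := by
    have hc : Continuous fun x => (om x : ℂ) ^ j • β (f x) (g x) :=
      ((Complex.continuous_ofReal.comp h.oc).pow j).smul
        ((β.continuous.comp f.continuous).clm_apply g.continuous)
    have := h.op
    have hβ := β.opNorm_nonneg
    obtain ⟨u, h1, h2⟩ := exists_BH hc (c := o⁻¹ * ‖β‖ * ‖f‖ * ‖g‖) (by positivity) fun x => by
      rw [norm_smul, mul_assoc, mul_assoc, ← mul_assoc ‖β‖, ← zpow_natCast]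
      exact mul_le_mul (h.zpow_le x (by omega)) ((β.le_opNorm₂ _ _).trans (by
        gcongr
        exacts [f.norm_coe_le_norm x, g.norm_coe_le_norm x])) (norm_nonneg _) (by positivity)
    refine ⟨u, h1, fun x => ?_⟩
    simp only [evW_apply, h2, map_smul, _root_.smul_apply, smul_smul]
    congr 1; push_cast; ring
  inc_ex f := by
    have hc : Continuous fun x => (w x : ℂ) • f x :=
      (Complex.continuous_ofReal.comp h.wc).smul f.continuous
    have := h.op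
    obtain ⟨g, h1, h2⟩ := exists_BH hc (c := o⁻¹ * ‖f‖) (by positivity) fun x => by
      rw [norm_smul, h.norm_w]
      exact mul_le_mul ((h.w1 x).trans h.one_le) (f.norm_coe_le_norm x) (norm_nonneg _)
        (by positivity)
    refine ⟨g, h1, fun x => ?_⟩
    simp only [evW_apply, h2, smul_smul]
    congr 1; push_cast; ring

@[simp] theorem bcf_om (x : ℝ) : h.bcf.om x = om x := rfl
@[simp] theorem bcf_ev1 : h.bcf.ev1 = evW w := rfl
@[simp] theorem bcf_ev2 : h.bcf.ev2 = evW fun x => w x ^ 2 := rfl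

end Wts

/-! ### dictionary -/

theorem toH_md_evW (σ : ℕ) (g om : ℝ → ℝ) (X : L.CL) (k : ℕ) (x : ℝ) :
    toH (md σ (om x) (evW g x) X k) = tru σ g om X k x := by
  rw [md, map_smul, toH_Pc, evW_apply, map_smul, smul_smul, tru]
  congr 1
  rw [← wt_eq_wn]; push_cast; ring

theorem P_tru (σ : ℕ) (g om : ℝ → ℝ) (X : L.CL) (k : ℕ) (x : ℝ) :
    P k (tru σ g om X k x) = tru σ g om X k x := by rw [tru, map_smul, P_P]

theorem md_evW (σ : ℕ) (g om : ℝ → ℝ) (X : L.CL) (k : ℕ) (x : ℝ) :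
    md σ (om x) (evW g x) X k = Pc k (tru σ g om X k x) := by
  rw [← toH_md_evW, Pc_of_mem (md_mem _ _ _ _ _)]

theorem val_tru {σ : ℕ} (hσ : 3 ≤ σ) (g : ℝ → ℝ) {om : ℝ → ℝ} {x : ℝ} (ho : ‖(om x : ℂ)‖ ≤ 1)
    (X : L.CL) : val (tru σ g om X) x = syn σ (om x) (evW g x) X := by
  rw [← (hasSum_syn hσ ho _ X).tsum_eq, val]
  exact tsum_congr fun k => (md_evW σ g om X k x).symm


namespace Wts
variable {w om : ℝ → ℝ} {o : ℝ} (h : Wts w om o)

theorem val_tru1 {σ : ℕ} (hσ : 3 ≤ σ) (X : L.CL) (x : ℝ) :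
    val (tru σ w om X) x = h.bcf.syn1 σ x X := val_tru hσ w (h.bcf.om_le x) X

theorem val_tru2 {σ : ℕ} (hσ : 3 ≤ σ) (X : L.CL) (x : ℝ) :
    val (tru σ (fun x => w x ^ 2) om X) x = h.bcf.syn2 σ x X := val_tru hσ _ (h.bcf.om_le x) X

theorem val_dt0 (p q f : L.CL) (x : ℝ) :
    val (dt (tru 6 w om p) (tru 6 w om q) (tru 4 (fun x => w x ^ 2) om f) 0) x =
      h.bcf.syn1 6 x (Layer.u0 (p, q, f)) := by
  rw [Layer.syn1, ← (hasSum_syn (by norm_num) (h.bcf.om_le x) _ _).tsum_eq, val]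
  refine tsum_congr fun k => ?_
  rw [Layer.md_u0]
  simp only [dt, map_add, bcf_om, bcf_ev1, md_evW]

theorem val_dt1 (p q f : L.CL) (x : ℝ) :
    val (dt (tru 6 w om p) (tru 6 w om q) (tru 4 (fun x => w x ^ 2) om f) 1) x =
      h.bcf.syn1 5 x (Layer.u1 (p, q, f)) := by
  rw [Layer.syn1, ← (hasSum_syn (by norm_num) (h.bcf.om_le x) _ _).tsum_eq, val]
  refine tsum_congr fun k => ?_
  rw [Layer.md_u1]
  simp only [dt, map_sub, map_smul, bcf_om, bcf_ev1, md_evW]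

theorem val_dt2 (p q f : L.CL) (x : ℝ) :
    val (dt (tru 6 w om p) (tru 6 w om q) (tru 4 (fun x => w x ^ 2) om f) 2) x =
      h.bcf.syn1 4 x (h.bcf.u2 (p, q, f)) := by
  rw [Layer.syn1, ← (hasSum_syn (by norm_num) (h.bcf.om_le x) _ _).tsum_eq, val]
  refine tsum_congr fun k => ?_
  rw [Layer.md_u2]
  simp only [dt, map_add, map_smul, bcf_om, bcf_ev1, bcf_ev2, md_evW]

/-- the jets of `L/Defs` are the true values of the stored jets -/
theorem jets_tru {ι : Type} [Fintype ι] (p q f : ι → L.CL) (x : ℝ) (y : S3) (j : ι × Jx) :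
    jets (fun i => tru 6 w om (p i)) (fun i => tru 6 w om (q i))
      (fun i => tru 4 (fun x => w x ^ 2) om (f i)) x y j =
      h.bcf.syn1 4 x (h.bcf.jetc j.2 (p j.1, q j.1, f j.1)) y := by
  rw [Layer.syn_jetc, jets, h.val_dt0, h.val_dt1, h.val_dt2]

theorem mem_prop2 {f : L.CL} : f ∈ h.bcf.prop2 ↔ ∀ k x, P k (f k x) = f k x := by
  rw [Layer.mem_prop2]
  refine forall_congr' fun k => forall_congr' fun x => ?_
  rw [bcf_ev2, evW_apply, map_smul]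
  exact (smul_right_injective H (by exact_mod_cast (pow_pos (h.w0 x) 2).ne')).eq_iff

end Wts

end Crest.Agent.N207.J
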