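import Mathlib
import Crest.Agent.R246.Zon0_797

-- ▼ part N207/J/Sph1
section

/-! # N207/J/Sph1 (helper72): polynomial functions on `S³`, rotation derivatives, Laplacian -/

set_option autoImplicit false
set_option maxHeartbeats 400000
open MeasureTheory Metric Topology Filter
open Crest.Agent.R246.Zon797

noncomputable section

namespace Crest.Agent.N207.J

abbrev E4 := EuclideanSpace ℝ (Fin 4)
abbrev S3 := SS 4
abbrev sg : Measure S3 := sig 4
abbrev CS := C(S3, ℂ)

/-- coordinate functions -/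
def xc (i : Fin 4) : CS := ⟨fun x => (((x : E4) i : ℝ) : ℂ), by fun_prop⟩

@[simp] theorem xc_apply (i : Fin 4) (x : S3) : xc i x = (((x : E4) i : ℝ) : ℂ) := rfl

theorem sum_xc_sq : ∑ i, xc i * xc i = 1 := by
  ext x
  have h : ‖(x : E4)‖ = 1 := by simp
  have h2 := EuclideanSpace.norm_sq_eq (x : E4)
  rw [h] at h2
  simp only [ContinuousMap.coe_sum, Finset.sum_apply, ContinuousMap.mul_apply, xc_apply,
    ContinuousMap.one_apply]
  have : ∑ i, (x : E4) i * (x : E4) i = 1 := by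
    rw [show (1 : ℝ) = 1 ^ 2 by norm_num, h2]
    refine Finset.sum_congr rfl fun i _ => ?_
    rw [Real.norm_eq_abs, sq_abs, sq]
  exact_mod_cast this

theorem star_xc (i : Fin 4) : star (xc i) = xc i := by
  ext x; simp

/-- polynomial functions of degree `≤ k` -/
def V : ℕ → Submodule ℂ CS
  | 0 => Submodule.span ℂ {1}
  | k + 1 => V k ⊔ ⨆ i : Fin 4, (V k).map (LinearMap.mulLeft ℂ (xc i))

/-- `W 0 = ⊥`, `W (k+1) = V k` -/
def W : ℕ → Submodule ℂ CS
  | 0 => ⊥
  | k + 1 => V k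

theorem V_le_succ (k : ℕ) : V k ≤ V (k + 1) := le_sup_left

theorem V_mono : Monotone V := monotone_nat_of_le_succ V_le_succ

theorem W_le_V (k : ℕ) : W k ≤ V k := by
  cases k with
  | zero => exact bot_le
  | succ k => exact V_le_succ k

theorem W_mono : Monotone W := monotone_nat_of_le_succ W_le_V

theorem one_mem_V (k : ℕ) : (1 : CS) ∈ V k :=
  V_mono (Nat.zero_le k) (Submodule.subset_span rfl)

theorem xc_mul_mem {k : ℕ} (i : Fin 4) {u : CS} (hu : u ∈ V k) : xc i * u ∈ V (k + 1) :=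
  Submodule.mem_sup_right (Submodule.mem_iSup_of_mem i ⟨u, hu, rfl⟩)

theorem xc_mul_memW {k : ℕ} (i : Fin 4) {u : CS} (hu : u ∈ W k) : xc i * u ∈ W (k + 1) := by
  cases k with
  | zero => rw [(Submodule.mem_bot ℂ).1 hu, mul_zero]; exact Submodule.zero_mem _
  | succ k => exact xc_mul_mem i hu

theorem xc_mem (i : Fin 4) : xc i ∈ V 1 := by
  simpa using xc_mul_mem i (one_mem_V 0)

/-- induction principle -/
theorem V_ind {p : ℕ → CS → Prop} (h1 : p 0 1) (h0 : ∀ k, p k 0)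
    (hadd : ∀ k u v, u ∈ V k → v ∈ V k → p k u → p k v → p k (u + v))
    (hsm : ∀ k (c : ℂ) u, u ∈ V k → p k u → p k (c • u))
    (hup : ∀ k u, u ∈ V k → p k u → p (k + 1) u)
    (hx : ∀ k i u, u ∈ V k → p k u → p (k + 1) (xc i * u)) :
    ∀ k u, u ∈ V k → p k u := by
  intro k
  induction k with
  | zero =>
    intro u hu
    obtain ⟨c, rfl⟩ := Submodule.mem_span_singleton.1 hu
    exact hsm 0 c 1 (one_mem_V 0) h1
  | succ k ih =>
    intro u hu
    obtain ⟨v, hv, w, hw, rfl⟩ := Submodule.mem_sup.1 hu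
    have key : w ∈ V (k + 1) ∧ p (k + 1) w := by
      refine Submodule.iSup_induction (motive := fun w => w ∈ V (k + 1) ∧ p (k + 1) w) _ hw ?_
        ⟨Submodule.zero_mem _, h0 _⟩ ?_
      · rintro i _ ⟨y, hy, rfl⟩
        exact ⟨xc_mul_mem i hy, hx k i y hy (ih y hy)⟩
      · intro x y hx hy
        exact ⟨Submodule.add_mem _ hx.1 hy.1, hadd _ _ _ hx.1 hy.1 hx.2 hy.2⟩
    exact hadd _ _ _ (V_le_succ k hv) key.1 (hup k v hv (ih v hv)) key.2

theorem mul_mem_V {j k : ℕ} {u v : CS} (hu : u ∈ V j) (hv : v ∈ V k) : u * v ∈ V (j + k) := by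
  refine V_ind (p := fun j u => u * v ∈ V (j + k)) ?_ ?_ ?_ ?_ ?_ ?_ j u hu
  · simpa using hv
  · intro k; simp
  · intro j u w _ _ h1 h2; rw [add_mul]; exact Submodule.add_mem _ h1 h2
  · intro j c u _ h; rw [smul_mul_assoc]; exact Submodule.smul_mem _ _ h
  · intro j u _ h; exact V_mono (by omega) h
  · intro j i u _ h
    rw [mul_assoc, show j + 1 + k = j + k + 1 by omega]; exact xc_mul_mem i h

theorem star_mem_V {k : ℕ} {u : CS} (hu : u ∈ V k) : star u ∈ V k := by
  refine V_ind (p := fun j u => star u ∈ V j) ?_ ?_ ?_ ?_ ?_ ?_ k u hu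
  · simpa using one_mem_V 0
  · intro k; simp
  · intro j u w _ _ h1 h2; rw [star_add]; exact Submodule.add_mem _ h1 h2
  · intro j c u _ h; rw [star_smul]; exact Submodule.smul_mem _ _ h
  · intro j u _ h; exact V_le_succ j h
  · intro j i u _ h; rw [star_mul', star_xc]; exact xc_mul_mem i h

/-- composition with an isometry -/
def cmp (g : E4 ≃ₗᵢ[ℝ] E4) (u : CS) : CS := u.comp ⟨isoS g, continuous_isoS g⟩

@[simp] theorem cmp_apply (g : E4 ≃ₗᵢ[ℝ] E4) (u : CS) (x : S3) : cmp g u x = u (isoS g x) := rfl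

theorem cmp_xc (g : E4 ≃ₗᵢ[ℝ] E4) (i : Fin 4) :
    cmp g (xc i) = ∑ j, ((g (EuclideanSpace.single j 1) i : ℝ) : ℂ) • xc j := by
  ext x
  have h : (x : E4) = ∑ j, (x : E4) j • EuclideanSpace.single j (1 : ℝ) := by
    ext l; simp [Pi.single_apply]
  simp only [cmp_apply, xc_apply, isoS_coe, ContinuousMap.coe_sum, Finset.sum_apply,
    ContinuousMap.smul_apply, smul_eq_mul]
  conv_lhs => rw [h]
  simp only [map_sum, map_smul, WithLp.ofLp_sum, Finset.sum_apply, WithLp.ofLp_smul,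
    Pi.smul_apply, smul_eq_mul]
  push_cast
  exact Finset.sum_congr rfl fun j _ => mul_comm _ _

theorem cmp_mem_V (g : E4 ≃ₗᵢ[ℝ] E4) {k : ℕ} {u : CS} (hu : u ∈ V k) : cmp g u ∈ V k := by
  refine V_ind (p := fun j u => cmp g u ∈ V j) ?_ ?_ ?_ ?_ ?_ ?_ k u hu
  · exact one_mem_V 0
  · intro k; exact Submodule.zero_mem _
  · intro j u w _ _ h1 h2; exact Submodule.add_mem _ h1 h2
  · intro j c u _ h; exact Submodule.smul_mem _ c h
  · intro j u _ h; exact V_le_succ j h
  · intro j i u _ h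
    have : cmp g (xc i * u) = cmp g (xc i) * cmp g u := rfl
    rw [this, cmp_xc, Finset.sum_mul]
    refine Submodule.sum_mem _ fun l _ => ?_
    rw [smul_mul_assoc]
    exact Submodule.smul_mem _ _ (xc_mul_mem l h)

/-! ### rotation derivatives -/

/-- `v` is the derivative of `u` along the rotation `a` -/
def HR (a : Pr 4) (u v : CS) : Prop :=
  ∀ x : S3, HasDerivAt (fun θ : ℝ => u (rotS a θ x)) (v x) 0

theorem HR.at {a : Pr 4} {u v : CS} (h : HR a u v) (x : S3) (θ : ℝ) :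
    HasDerivAt (fun τ : ℝ => u (rotS a τ x)) (v (rotS a θ x)) θ := by
  have h1 := h (rotS a θ x)
  have h3 : HasDerivAt (fun σ : ℝ => u (rotS a σ (rotS a θ x))) (v (rotS a θ x)) (θ - θ) := by
    rw [sub_self]; exact h1
  have h4 := h3.comp_sub_const θ θ
  refine h4.congr_of_eventuallyEq (Eventually.of_forall fun τ => ?_)
  show u (rotS a τ x) = u (rotS a (τ - θ) (rotS a θ x))
  rw [← rotS_add, sub_add_cancel]

theorem HR.unique {a : Pr 4} {u v w : CS} (h : HR a u v) (h' : HR a u w) : v = w := by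
  ext x; exact (h x).unique (h' x)

theorem HR.one (a : Pr 4) : HR a 1 0 := fun x => by
  simpa using hasDerivAt_const (0 : ℝ) (1 : ℂ)

theorem HR.zero (a : Pr 4) : HR a 0 0 := fun x => by
  simpa using hasDerivAt_const (0 : ℝ) (0 : ℂ)

theorem HR.add {a : Pr 4} {u v u' v' : CS} (h : HR a u u') (h' : HR a v v') :
    HR a (u + v) (u' + v') := fun x => (h x).add (h' x)

theorem HR.sub {a : Pr 4} {u v u' v' : CS} (h : HR a u u') (h' : HR a v v') :
    HR a (u - v) (u' - v') := fun x => (h x).sub (h' x)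

theorem HR.smul {a : Pr 4} {u u' : CS} (c : ℂ) (h : HR a u u') :
    HR a (c • u) (c • u') := fun x => (h x).const_mul c

theorem HR.mul {a : Pr 4} {u v u' v' : CS} (h : HR a u u') (h' : HR a v v') :
    HR a (u * v) (u' * v + u * v') := fun x => by
  have := (h x).mul (h' x)
  simp only [rotS_zero] at this
  exact this

theorem HR.star {a : Pr 4} {u u' : CS} (h : HR a u u') : HR a (star u) (star u') := fun x =>
  (h x).star

theorem HR.sum {ι : Type*} {a : Pr 4} {s : Finset ι} {u u' : ι → CS}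
    (h : ∀ i ∈ s, HR a (u i) (u' i)) : HR a (∑ i ∈ s, u i) (∑ i ∈ s, u' i) := by
  classical
  induction s using Finset.induction_on with
  | empty => simpa using HR.zero a
  | insert i s hi ih =>
    rw [Finset.sum_insert hi, Finset.sum_insert hi]
    exact (h i (Finset.mem_insert_self _ _)).add
      (ih fun j hj => h j (Finset.mem_insert_of_mem hj))

theorem HR.tendsto {a : Pr 4} {ι : Type*} {l : Filter ι} [NeBot l] {u u' : ι → CS}
    {v v' : CS} (hu : Tendsto u l (𝓝 v)) (hu' : Tendsto u' l (𝓝 v'))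
    (h : ∀ i, HR a (u i) (u' i)) : HR a v v' := by
  intro x
  have h1 : TendstoUniformly (fun i (θ : ℝ) => u' i (rotS a θ x)) (fun θ => v' (rotS a θ x)) l := by
    have := ContinuousMap.tendsto_iff_tendstoUniformly.1 hu'
    exact this.comp (fun θ : ℝ => rotS a θ x)
  have h2 := hasDerivAt_of_tendstoUniformly h1 (f := fun i (θ : ℝ) => u i (rotS a θ x))
    (g := fun θ => v (rotS a θ x)) (Eventually.of_forall fun i θ => (h i).at x θ) (fun θ => by
      have := (ContinuousMap.tendsto_iff_tendstoUniformly.1 hu).tendsto_at (rotS a θ x)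
      exact this) 0
  simpa [rotS_zero] using h2

theorem integrable_CS (u : CS) : Integrable (fun x => u x) sg :=
  u.continuous.integrable_of_hasCompactSupport (HasCompactSupport.of_compactSpace _)

theorem integral_cmp (g : E4 ≃ₗᵢ[ℝ] E4) (f : S3 → ℂ) :
    ∫ y, f (isoS g y) ∂sg = ∫ y, f y ∂sg := by
  have hemb : MeasurableEmbedding (isoS g) := by
    refine (Topology.IsClosedEmbedding.of_continuous_injective_isClosedMap (continuous_isoS g) ?_
      (continuous_isoS g).isClosedMap).measurableEmbedding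
    intro x y hxy
    rw [← isoS_symm_isoS g x, hxy, isoS_symm_isoS]
  exact (mp_isoS g).integral_comp hemb f

theorem HR.integral_eq_zero {a : Pr 4} {u v : CS} (h : HR a u v) : ∫ x, v x ∂sg = 0 := by
  have c1 : ∀ (w : CS) (θ : ℝ), Continuous (fun x => w (rotS a θ x)) := fun w θ =>
    w.continuous.comp (continuous_isoS (rotE a θ))
  have i1 : Integrable (fun x => u (rotS a 0 x)) sg := by
    simp only [rotS_zero]; exact integrable_CS u
  have m1 : ∀ᶠ θ in 𝓝 (0 : ℝ), AEStronglyMeasurable (fun x => u (rotS a θ x)) sg :=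
    Eventually.of_forall fun θ => (c1 u θ).aestronglyMeasurable
  have m2 : AEStronglyMeasurable (fun x => v (rotS a 0 x)) sg := (c1 v 0).aestronglyMeasurable
  have b1 : ∀ᵐ x ∂sg, ∀ θ ∈ (Set.univ : Set ℝ), ‖v (rotS a θ x)‖ ≤ ‖v‖ :=
    Eventually.of_forall fun x θ _ => v.norm_coe_le_norm _
  have b2 : Integrable (fun _ : S3 => ‖v‖) sg := integrable_const _
  have b3 : ∀ᵐ x ∂sg, ∀ θ ∈ (Set.univ : Set ℝ),
      HasDerivAt (fun τ => u (rotS a τ x)) (v (rotS a θ x)) θ :=
    Eventually.of_forall fun x θ _ => h.at x θ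
  have key := hasDerivAt_integral_of_dominated_loc_of_deriv_le (μ := sg) (𝕜 := ℝ)
    (F := fun θ x => u (rotS a θ x)) (F' := fun θ x => v (rotS a θ x)) (x₀ := (0 : ℝ))
    (s := Set.univ) (bound := fun _ => ‖v‖) univ_mem m1 i1 m2 b1 b2 b3
  have h2 := key.2
  have h3 : (fun θ : ℝ => ∫ x, u (rotS a θ x) ∂sg) = fun _ => ∫ x, u x ∂sg := by
    funext θ; exact integral_cmp (rotE a θ) _
  rw [h3] at h2
  have h4 := h2.unique (hasDerivAt_const (0 : ℝ) _)
  simpa [rotS_zero] using h4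

theorem HR.ibp {a : Pr 4} {u v u' v' : CS} (h : HR a u u') (h' : HR a v v') :
    ∫ x, u' x * v x ∂sg = - ∫ x, u x * v' x ∂sg := by
  have h1 := (h.mul h').integral_eq_zero
  have h2 : ∫ x, (u' * v + u * v') x ∂sg = ∫ x, u' x * v x ∂sg + ∫ x, u x * v' x ∂sg := by
    exact integral_add (integrable_CS (u' * v)) (integrable_CS (u * v'))
  rw [h2] at h1
  exact eq_neg_of_add_eq_zero_left h1

/-- derivative of a coordinate -/
def rx (a : Pr 4) (i : Fin 4) : CS :=
  if i = a.1.1 then -xc a.1.2 else if i = a.1.2 then xc a.1.1 else 0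

theorem HR.xc (a : Pr 4) (i : Fin 4) : HR a (xc i) (rx a i) := by
  intro x
  unfold rx
  have hc : HasDerivAt (fun θ : ℝ => ((Real.cos θ : ℝ) : ℂ)) 0 0 := by
    simpa using (Real.hasDerivAt_cos 0).ofReal_comp
  have hs : HasDerivAt (fun θ : ℝ => ((Real.sin θ : ℝ) : ℂ)) 1 0 := by
    simpa using (Real.hasDerivAt_sin 0).ofReal_comp
  by_cases h1 : i = a.1.1
  · subst h1
    simp only [xc_apply, rotS_coe, rotV_i, if_true, ContinuousMap.neg_apply, Complex.ofReal_sub,
      Complex.ofReal_mul]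
    have := (hc.mul_const (((x : E4) a.1.1 : ℝ) : ℂ)).sub (hs.mul_const (((x : E4) a.1.2 : ℝ) : ℂ))
    exact this.congr_deriv (by ring)
  · by_cases h2 : i = a.1.2
    · subst h2
      simp only [xc_apply, rotS_coe, rotV_j a.ne, if_true, h1, if_false, Complex.ofReal_add,
        Complex.ofReal_mul]
      have := (hs.mul_const (((x : E4) a.1.1 : ℝ) : ℂ)).add
        (hc.mul_const (((x : E4) a.1.2 : ℝ) : ℂ))
      exact this.congr_deriv (by ring)
    · simp only [xc_apply, rotS_coe, rotV_ne h1 h2, h1, h2, if_false, ContinuousMap.zero_apply]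
      exact hasDerivAt_const _ _

theorem rx_mem (a : Pr 4) (i : Fin 4) : rx a i ∈ V 1 := by
  unfold rx
  split_ifs
  · exact Submodule.neg_mem _ (xc_mem _)
  · exact xc_mem _
  · exact Submodule.zero_mem _

open Classical in
/-- the rotation derivative (junk `0` when it does not exist) -/
def R (a : Pr 4) (u : CS) : CS := if h : ∃ v, HR a u v then h.choose else 0

theorem HR.R_eq {a : Pr 4} {u v : CS} (h : HR a u v) : R a u = v := by
  have h' : ∃ v, HR a u v := ⟨v, h⟩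
  unfold R
  rw [dif_pos h']
  exact h'.choose_spec.unique h

theorem exists_HR (a : Pr 4) {k : ℕ} {u : CS} (hu : u ∈ V k) : ∃ v ∈ V k, HR a u v := by
  refine V_ind (p := fun j u => ∃ v ∈ V j, HR a u v) ?_ ?_ ?_ ?_ ?_ ?_ k u hu
  · exact ⟨0, Submodule.zero_mem _, HR.one a⟩
  · intro k; exact ⟨0, Submodule.zero_mem _, HR.zero a⟩
  · rintro j u w _ _ ⟨u', h1, h2⟩ ⟨w', h3, h4⟩; exact ⟨_, Submodule.add_mem _ h1 h3, h2.add h4⟩
  · rintro j c u _ ⟨u', h1, h2⟩; exact ⟨_, Submodule.smul_mem _ c h1, h2.smul c⟩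
  · rintro j u _ ⟨u', h1, h2⟩; exact ⟨_, V_le_succ j h1, h2⟩
  · rintro j i u hu ⟨u', h1, h2⟩
    refine ⟨_, Submodule.add_mem _ ?_ (xc_mul_mem i h1), (HR.xc a i).mul h2⟩
    simpa [add_comm] using mul_mem_V (rx_mem a i) hu

theorem HR_R (a : Pr 4) {k : ℕ} {u : CS} (hu : u ∈ V k) : HR a u (R a u) := by
  obtain ⟨v, -, h⟩ := exists_HR a hu
  rw [h.R_eq]; exact h

theorem R_mem (a : Pr 4) {k : ℕ} {u : CS} (hu : u ∈ V k) : R a u ∈ V k := by
  obtain ⟨v, hv, h⟩ := exists_HR a hu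
  rw [h.R_eq]; exact hv

theorem R_memW (a : Pr 4) {k : ℕ} {u : CS} (hu : u ∈ W k) : R a u ∈ W k := by
  cases k with
  | zero => rw [(Submodule.mem_bot ℂ).1 hu, (HR.zero a).R_eq]; exact Submodule.zero_mem _
  | succ k => exact R_mem a hu

theorem R_zero (a : Pr 4) : R a 0 = 0 := (HR.zero a).R_eq
theorem R_one (a : Pr 4) : R a 1 = 0 := (HR.one a).R_eq
theorem R_xc (a : Pr 4) (i : Fin 4) : R a (xc i) = rx a i := (HR.xc a i).R_eq

theorem R_add (a : Pr 4) {j k : ℕ} {u v : CS} (hu : u ∈ V j) (hv : v ∈ V k) :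
    R a (u + v) = R a u + R a v := ((HR_R a hu).add (HR_R a hv)).R_eq

theorem R_smul (a : Pr 4) {j : ℕ} (c : ℂ) {u : CS} (hu : u ∈ V j) :
    R a (c • u) = c • R a u := ((HR_R a hu).smul c).R_eq

theorem R_mul (a : Pr 4) {j k : ℕ} {u v : CS} (hu : u ∈ V j) (hv : v ∈ V k) :
    R a (u * v) = R a u * v + u * R a v := ((HR_R a hu).mul (HR_R a hv)).R_eq


end Crest.Agent.N207.J
end
end

-- ▼ part N207/J/Sph2
section

/-! # N207/J/Sph2 (helper72): the spherical Laplacian modulo lower degree; `L²` structure -/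

set_option autoImplicit false
set_option maxHeartbeats 400000
open MeasureTheory Metric Topology Filter
open Crest.Agent.R246.Zon797
open scoped InnerProductSpace

noncomputable section

namespace Crest.Agent.N207.J

theorem sum_Pr4 {M : Type*} [AddCommMonoid M] (f : Pr 4 → M) :
    ∑ a, f a = f ⟨(0, 1), by decide⟩ + f ⟨(0, 2), by decide⟩ + f ⟨(0, 3), by decide⟩
      + f ⟨(1, 2), by decide⟩ + f ⟨(1, 3), by decide⟩ + f ⟨(2, 3), by decide⟩ := by
  have h : (Finset.univ : Finset (Pr 4)) = {⟨(0, 1), by decide⟩, ⟨(0, 2), by decide⟩,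
      ⟨(0, 3), by decide⟩, ⟨(1, 2), by decide⟩, ⟨(1, 3), by decide⟩, ⟨(2, 3), by decide⟩} := by
    decide
  rw [h]
  repeat rw [Finset.sum_insert (by decide)]
  rw [Finset.sum_singleton]
  simp only [add_assoc]

theorem sum_xc_sq' : xc 0 * xc 0 + xc 1 * xc 1 + xc 2 * xc 2 + xc 3 * xc 3 = 1 := by
  rw [← sum_xc_sq, Fin.sum_univ_four]

theorem gam_xc (i j : Fin 4) :
    ∑ a, rx a i * rx a j = (if i = j then 1 else 0) - xc i * xc j := by
  rw [sum_Pr4]
  have h := sum_xc_sq'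
  fin_cases i <;> fin_cases j <;> simp [rx] <;> first | ring1 | linear_combination h

theorem R_neg_xc (a : Pr 4) (i : Fin 4) : R a (-xc i) = -rx a i := by
  have := R_smul a (-1) (xc_mem i)
  have e : ∀ u : CS, (-1 : ℂ) • u = -u := fun u => by ext x; simp
  rwa [e, e, R_xc] at this

theorem lap_xc (i : Fin 4) : ∑ a, R a (rx a i) = -(3 : CS) * xc i := by
  rw [sum_Pr4]
  fin_cases i <;> simp [rx, R_neg_xc, R_xc, R_zero] <;> ring1

/-- the spherical Laplacian -/
def Lap (u : CS) : CS := ∑ a, R a (R a u)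

theorem natCS (k : ℕ) (u : CS) : (k : ℂ) • u = (k : CS) * u := by
  ext x; simp

theorem gam_mem {k : ℕ} {u : CS} (hu : u ∈ V k) (i : Fin 4) :
    ∑ a, rx a i * R a u + (k : CS) * (xc i * u) ∈ V k := by
  refine V_ind (p := fun k u => ∑ a, rx a i * R a u + (k : CS) * (xc i * u) ∈ V k)
    ?_ ?_ ?_ ?_ ?_ ?_ k u hu
  · simp [R_one]
  · intro k; simp [R_zero]
  · intro j u w hu hw h1 h2
    have := Submodule.add_mem _ h1 h2
    convert this using 1
    simp only [R_add _ hu hw, mul_add, Finset.sum_add_distrib]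
    ring
  · intro j c u hu h
    have := Submodule.smul_mem _ c h
    convert this using 1
    simp only [R_smul _ c hu, smul_add, Finset.smul_sum, mul_smul_comm]
  · intro j u hu h
    have := Submodule.add_mem _ (V_le_succ j h) (xc_mul_mem i hu)
    convert this using 1
    push_cast; ring
  · intro j l u hu h
    have h2 : (if i = l then (1 : CS) else 0) * u ∈ V (j + 1) := by
      split_ifs
      · rw [one_mul]; exact V_le_succ j hu
      · rw [zero_mul]; exact Submodule.zero_mem _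
    have := Submodule.add_mem _ (xc_mul_mem l h) h2
    convert this using 1
    have e : ∑ a, rx a i * R a (xc l * u)
        = (∑ a, rx a i * rx a l) * u + xc l * ∑ a, rx a i * R a u := by
      rw [Finset.sum_mul, Finset.mul_sum, ← Finset.sum_add_distrib]
      refine Finset.sum_congr rfl fun a _ => ?_
      rw [R_mul a (xc_mem l) hu, R_xc]; ring
    rw [e, gam_xc]
    push_cast; ring

theorem Lap_mem {k : ℕ} {u : CS} (hu : u ∈ V k) : Lap u ∈ V k :=
  Submodule.sum_mem _ fun a _ => R_mem a (R_mem a hu)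

theorem Lap_add {j k : ℕ} {u v : CS} (hu : u ∈ V j) (hv : v ∈ V k) :
    Lap (u + v) = Lap u + Lap v := by
  unfold Lap
  rw [← Finset.sum_add_distrib]
  exact Finset.sum_congr rfl fun a _ => by rw [R_add a hu hv, R_add a (R_mem a hu) (R_mem a hv)]

theorem Lap_smul {j : ℕ} (c : ℂ) {u : CS} (hu : u ∈ V j) : Lap (c • u) = c • Lap u := by
  unfold Lap
  rw [Finset.smul_sum]
  exact Finset.sum_congr rfl fun a _ => by rw [R_smul a c hu, R_smul a c (R_mem a hu)]

theorem Lap_xc_mul {k : ℕ} {u : CS} (hu : u ∈ V k) (i : Fin 4) :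
    Lap (xc i * u) = xc i * Lap u + 2 * ∑ a, rx a i * R a u - 3 * (xc i * u) := by
  unfold Lap
  have e : ∀ a, R a (R a (xc i * u))
      = R a (rx a i) * u + (xc i * R a (R a u) + 2 * (rx a i * R a u)) := by
    intro a
    rw [R_mul a (xc_mem i) hu, R_xc, R_add a (mul_mem_V (rx_mem a i) hu)
      (mul_mem_V (xc_mem i) (R_mem a hu)), R_mul a (rx_mem a i) hu,
      R_mul a (xc_mem i) (R_mem a hu), R_xc]
    ring
  simp only [e, Finset.sum_add_distrib, ← Finset.sum_mul, ← Finset.mul_sum, lap_xc]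
  ring

theorem lap_memW {k : ℕ} {u : CS} (hu : u ∈ V k) :
    Lap u + ((k * (k + 2) : ℕ) : ℂ) • u ∈ W k := by
  refine V_ind (p := fun k u => Lap u + ((k * (k + 2) : ℕ) : ℂ) • u ∈ W k)
    ?_ ?_ ?_ ?_ ?_ ?_ k u hu
  · rw [natCS]; simp [Lap, R_one, R_zero]
  · intro k; rw [natCS]; simp [Lap, R_zero]
  · intro j u w hu hw h1 h2
    have := Submodule.add_mem _ h1 h2
    convert this using 1
    rw [Lap_add hu hw, natCS, natCS, natCS]; ring
  · intro j c u hu h
    have := Submodule.smul_mem _ c h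
    convert this using 1
    rw [Lap_smul c hu]; ext x
    simp only [ContinuousMap.add_apply, ContinuousMap.smul_apply, smul_eq_mul]; ring
  · intro j u hu h
    exact Submodule.add_mem _ (Lap_mem hu) (Submodule.smul_mem _ _ hu)
  · intro j l u hu h
    have h1 : xc l * (Lap u + ((j * (j + 2) : ℕ) : ℂ) • u) ∈ V j := xc_mul_memW l h
    have h2 := gam_mem hu l
    have := Submodule.add_mem _ h1 (Submodule.add_mem _ h2 h2)
    show _ ∈ V j
    convert this using 1
    rw [Lap_xc_mul hu, natCS, natCS]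
    push_cast; ring

/-! ### finite dimension -/

def mono (α : Fin 4 → ℕ) : CS := ∏ i, xc i ^ α i

theorem V_le_span (k : ℕ) :
    V k ≤ Submodule.span ℂ (mono '' (Fintype.piFinset fun _ : Fin 4 => Finset.range (k + 1))) := by
  intro u hu
  refine V_ind (p := fun k u => u ∈ Submodule.span ℂ
    (mono '' (Fintype.piFinset fun _ : Fin 4 => Finset.range (k + 1)))) ?_ ?_ ?_ ?_ ?_ ?_ k u hu
  · exact Submodule.subset_span ⟨fun _ => 0, by simp, by simp [mono]⟩
  · intro k; exact Submodule.zero_mem _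
  · intro j u w _ _ h1 h2; exact Submodule.add_mem _ h1 h2
  · intro j c u _ h; exact Submodule.smul_mem _ c h
  · intro j u _ h
    refine Submodule.span_mono (Set.image_mono ?_) h
    intro α hα
    simp only [Finset.mem_coe, Fintype.mem_piFinset, Finset.mem_range] at hα ⊢
    exact fun i => (hα i).trans (by omega)
  · intro j l u _ h
    have := Submodule.mem_map_of_mem (f := LinearMap.mulLeft ℂ (xc l)) h
    rw [Submodule.map_span] at this
    refine Submodule.span_mono ?_ this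
    rintro _ ⟨_, ⟨α, hα, rfl⟩, rfl⟩
    refine ⟨α + Pi.single l 1, ?_, ?_⟩
    · simp only [Finset.mem_coe, Fintype.mem_piFinset, Finset.mem_range] at hα ⊢
      intro i
      have := hα i
      by_cases h : i = l
      · subst h; simp; omega
      · simp [h]; omega
    · simp only [mono, Pi.add_apply, pow_add, Finset.prod_mul_distrib, LinearMap.mulLeft_apply]
      rw [mul_comm]
      congr 1
      rw [Finset.prod_eq_single l (fun b _ hb => by simp [hb]) (by simp)]
      simp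

instance finV (k : ℕ) : FiniteDimensional ℂ (V k) := by
  have := FiniteDimensional.span_of_finite ℂ
    ((Fintype.piFinset fun _ : Fin 4 => Finset.range (k + 1)).finite_toSet.image mono)
  exact Submodule.finiteDimensional_of_le (V_le_span k)

instance finW (k : ℕ) : FiniteDimensional ℂ (W k) :=
  Submodule.finiteDimensional_of_le (W_le_V k)

theorem finrank_V (k : ℕ) : Module.finrank ℂ (V k) ≤ (k + 1) ^ 4 := by
  classical
  have := FiniteDimensional.span_of_finite ℂ
    ((Fintype.piFinset fun _ : Fin 4 => Finset.range (k + 1)).finite_toSet.image mono)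
  refine (Submodule.finrank_mono (V_le_span k)).trans ?_
  rw [← Finset.coe_image]
  refine (finrank_span_finset_le_card _).trans (Finset.card_image_le.trans ?_)
  simp

/-! ### `L²` -/

abbrev H := Lp ℂ 2 sg

def toH : CS →L[ℂ] H := ContinuousMap.toLp 2 sg ℂ

theorem toH_inj : Function.Injective toH := ContinuousMap.toLp_injective sg

theorem toH_dense : DenseRange toH := ContinuousMap.toLp_denseRange ℂ sg ℂ (by simp)

theorem coe_toH (u : CS) : (toH u : S3 → ℂ) =ᵐ[sg] u := ContinuousMap.coeFn_toLp sg u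

theorem inner_toH (u v : CS) : ⟪toH u, toH v⟫_ℂ = ∫ x, star u x * v x ∂sg := by
  rw [L2.inner_def]
  refine integral_congr_ae ?_
  filter_upwards [coe_toH u, coe_toH v] with x h1 h2
  rw [h1, h2]
  simp [mul_comm]

theorem norm_toH_sq (u : CS) : ‖toH u‖ ^ 2 = ∫ x, ‖u x‖ ^ 2 ∂sg := by
  have h1 := inner_toH u u
  rw [inner_self_eq_norm_sq_to_K] at h1
  have h2 : ∫ x, star u x * u x ∂sg = ((∫ x, ‖u x‖ ^ 2 ∂sg : ℝ) : ℂ) := by
    rw [← integral_complex_ofReal]
    refine integral_congr_ae (Eventually.of_forall fun x => ?_)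
    simp [Complex.conj_mul']
  rw [h2] at h1
  apply Complex.ofReal_injective
  rw [← h1]; simp

theorem integrable_CSR (f : S3 → ℝ) (hf : Continuous f) : Integrable f sg :=
  hf.integrable_of_hasCompactSupport (HasCompactSupport.of_compactSpace _)

theorem inner_mul (u v w : CS) : ⟪toH u, toH (v * w)⟫_ℂ = ⟪toH (star v * u), toH w⟫_ℂ := by
  rw [inner_toH, inner_toH]
  refine integral_congr_ae (Eventually.of_forall fun x => ?_)
  simp only [ContinuousMap.star_apply, ContinuousMap.mul_apply, star_mul', star_star]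
  ring

theorem norm_toH_mul (u v : CS) : ‖toH (u * v)‖ ≤ ‖u‖ * ‖toH v‖ := by
  refine (sq_le_sq₀ (by positivity) (by positivity)).1 ?_
  rw [mul_pow, norm_toH_sq, norm_toH_sq, ← integral_const_mul]
  refine integral_mono (integrable_CSR _ (by fun_prop)) (integrable_CSR _ (by fun_prop)) fun x => ?_
  simp only [ContinuousMap.mul_apply, norm_mul, mul_pow]
  exact mul_le_mul_of_nonneg_right
    (pow_le_pow_left₀ (norm_nonneg _) (u.norm_coe_le_norm x) 2) (by positivity)

theorem inner_cmp (g : E4 ≃ₗᵢ[ℝ] E4) (u v : CS) :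
    ⟪toH (cmp g u), toH (cmp g v)⟫_ℂ = ⟪toH u, toH v⟫_ℂ := by
  rw [inner_toH, inner_toH]
  exact integral_cmp g (fun x => star u x * v x)

theorem norm_cmp (g : E4 ≃ₗᵢ[ℝ] E4) (u : CS) : ‖toH (cmp g u)‖ = ‖toH u‖ := by
  rw [norm_eq_sqrt_re_inner (𝕜 := ℂ), inner_cmp, ← norm_eq_sqrt_re_inner (𝕜 := ℂ)]

/-- rotation derivatives are skew -/
theorem HR.inner {a : Pr 4} {u v u' v' : CS} (h : HR a u u') (h' : HR a v v') :
    ⟪toH u', toH v⟫_ℂ = -⟪toH u, toH v'⟫_ℂ := by
  rw [inner_toH, inner_toH]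
  exact h.star.ibp h'

end Crest.Agent.N207.J
end
end

-- ▼ part N207/J/Sph3
section

/-! # N207/J/Sph3 (helper72): the projections `P k` on spherical harmonics of degree `k` -/

set_option autoImplicit false
set_option maxHeartbeats 400000
open MeasureTheory Metric Topology Filter
open Crest.Agent.R246.Zon797
open scoped InnerProductSpace

noncomputable section

namespace Crest.Agent.N207.J

/-- image in `L²` of the polynomials of degree `< k` -/
def WH (k : ℕ) : Submodule ℂ H := (W k).map (toH : CS →ₗ[ℂ] H)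

instance finWH (k : ℕ) : FiniteDimensional ℂ (WH k) := by unfold WH; infer_instance

instance complWH (k : ℕ) : CompleteSpace (WH k) := FiniteDimensional.complete ℂ _

theorem WH_mono : Monotone WH := fun _ _ h => Submodule.map_mono (W_mono h)

theorem toH_memWH {k : ℕ} {u : CS} (hu : u ∈ W k) : toH u ∈ WH k := ⟨u, hu, rfl⟩

/-- projection on degree `< k` -/
def Q (k : ℕ) : H →L[ℂ] H := (WH k).starProjection

/-- projection on the spherical harmonics of degree `k` -/
def P (k : ℕ) : H →L[ℂ] H := Q (k + 1) - Q k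

theorem Q_mem (k : ℕ) (u : H) : Q k u ∈ WH k := (WH k).starProjection_apply_mem u

theorem Q_eq_self {k : ℕ} {u : H} (hu : u ∈ WH k) : Q k u = u :=
  Submodule.starProjection_eq_self_iff.2 hu

theorem inner_Q (k : ℕ) (u v : H) : ⟪Q k u, v⟫_ℂ = ⟪u, Q k v⟫_ℂ :=
  (WH k).inner_starProjection_left_eq_right u v

theorem Q_Q_of_le {j k : ℕ} (h : j ≤ k) (u : H) : Q k (Q j u) = Q j u :=
  Q_eq_self (WH_mono h (Q_mem j u))

theorem Q_Q_of_ge {j k : ℕ} (h : j ≤ k) (u : H) : Q j (Q k u) = Q j u := by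
  refine ext_inner_left ℂ fun v => ?_
  rw [← inner_Q, ← inner_Q, Q_Q_of_le h, inner_Q]

theorem Q_zero (u : H) : Q 0 u = 0 := by
  obtain ⟨w, hw, h⟩ := Q_mem 0 u
  rw [← h, (Submodule.mem_bot ℂ).1 hw, map_zero]

theorem P_apply (k : ℕ) (u : H) : P k u = Q (k + 1) u - Q k u := rfl

theorem inner_P (k : ℕ) (u v : H) : ⟪P k u, v⟫_ℂ = ⟪u, P k v⟫_ℂ := by
  rw [P_apply, P_apply, inner_sub_left, inner_sub_right, inner_Q, inner_Q]

theorem P_mem (k : ℕ) (u : H) : P k u ∈ WH (k + 1) :=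
  Submodule.sub_mem _ (Q_mem _ u) (WH_mono (Nat.le_succ k) (Q_mem k u))

theorem P_P (k : ℕ) (u : H) : P k (P k u) = P k u := by
  simp only [P_apply, map_sub]
  rw [Q_Q_of_le le_rfl, Q_Q_of_le (Nat.le_succ k), Q_Q_of_ge (Nat.le_succ k), Q_Q_of_le le_rfl]
  abel

theorem P_of_memWH {k l : ℕ} (h : k ≤ l) {u : H} (hu : u ∈ WH k) : P l u = 0 := by
  rw [P_apply, Q_eq_self (WH_mono (by omega) hu), Q_eq_self (WH_mono h hu), sub_self]

theorem P_P_ne {j k : ℕ} (h : j ≠ k) (u : H) : P j (P k u) = 0 := by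
  rcases lt_or_gt_of_ne h with h | h
  · refine ext_inner_left ℂ fun v => ?_
    rw [← inner_P, ← inner_P, P_of_memWH h (P_mem j v), inner_zero_left, inner_zero_right]
  · exact P_of_memWH h (P_mem k u)

theorem inner_P_P_ne {j k : ℕ} (h : j ≠ k) (u v : H) : ⟪P j u, P k v⟫_ℂ = 0 := by
  rw [inner_P, P_P_ne h, inner_zero_right]

theorem sum_P (n : ℕ) (u : H) : ∑ k ∈ Finset.range n, P k u = Q n u := by
  induction n with
  | zero => simp [Q_zero]
  | succ n ih => rw [Finset.sum_range_succ, ih, P_apply]; abel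

/-! ### density -/

/-- the algebra of polynomial functions -/
def polyA : StarSubalgebra ℂ CS where
  carrier := {u | ∃ k, u ∈ V k}
  mul_mem' := by rintro a b ⟨j, ha⟩ ⟨k, hb⟩; exact ⟨_, mul_mem_V ha hb⟩
  add_mem' := by
    rintro a b ⟨j, ha⟩ ⟨k, hb⟩
    exact ⟨j + k, Submodule.add_mem _ (V_mono (by omega) ha) (V_mono (by omega) hb)⟩
  algebraMap_mem' := fun c => ⟨0, by
    have := Submodule.smul_mem _ c (one_mem_V 0)
    convert this using 1
    ext x; simp⟩
  star_mem' := by rintro a ⟨j, ha⟩; exact ⟨j, star_mem_V ha⟩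

theorem polyA_dense : Dense {u : CS | ∃ k, u ∈ V k} := by
  have h := ContinuousMap.starSubalgebra_topologicalClosure_eq_top_of_separatesPoints polyA (by
    intro x y hxy
    have : ∃ i, (x : E4) i ≠ (y : E4) i := by
      by_contra hc
      push Not at hc
      exact hxy (Subtype.ext (by ext i; exact hc i))
    obtain ⟨i, hi⟩ := this
    exact ⟨xc i, ⟨xc i, ⟨1, xc_mem i⟩, rfl⟩, by simpa using hi⟩)
  intro u
  have : u ∈ polyA.topologicalClosure := by rw [h]; trivial
  exact this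

theorem Q_tendsto (u : H) : Tendsto (fun n => Q n u) atTop (𝓝 u) := by
  refine Submodule.starProjection_tendsto_self WH WH_mono u ?_
  intro v _
  have h := toH_dense.dense_image toH.continuous polyA_dense
  refine closure_mono ?_ (h v)
  rintro _ ⟨w, ⟨k, hw⟩, rfl⟩
  exact Submodule.mem_iSup_of_mem (k + 1) (toH_memWH hw)

theorem norm_sum_orth {f : ℕ → H} (hf : ∀ k, P k (f k) = f k) (s : Finset ℕ) :
    ‖∑ k ∈ s, f k‖ ^ 2 = ∑ k ∈ s, ‖f k‖ ^ 2 := by
  classical
  induction s using Finset.induction_on with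
  | empty => simp
  | insert i s hi ih =>
    rw [Finset.sum_insert hi, Finset.sum_insert hi, ← ih, sq, sq, sq]
    refine norm_add_sq_eq_norm_sq_add_norm_sq_of_inner_eq_zero (𝕜 := ℂ) _ _ ?_
    rw [inner_sum]
    refine Finset.sum_eq_zero fun j hj => ?_
    rw [← hf i, ← hf j]
    exact inner_P_P_ne (fun h : i = j => hi (h ▸ hj)) _ _

theorem summable_orth {f : ℕ → H} (hf : ∀ k, P k (f k) = f k)
    (hs : Summable fun k => ‖f k‖ ^ 2) : Summable f := by
  rw [summable_iff_vanishing_norm] at hs ⊢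
  intro ε hε
  obtain ⟨s, h⟩ := hs (ε ^ 2) (by positivity)
  refine ⟨s, fun t ht => ?_⟩
  have h1 := h t ht
  rw [Real.norm_of_nonneg (Finset.sum_nonneg fun _ _ => by positivity), ← norm_sum_orth hf] at h1
  exact (sq_lt_sq₀ (norm_nonneg _) hε.le).1 h1

theorem hasSum_sq_orth {f : ℕ → H} (hf : ∀ k, P k (f k) = f k) {u : H} (hu : HasSum f u) :
    HasSum (fun k => ‖f k‖ ^ 2) (‖u‖ ^ 2) := by
  have h : Tendsto (fun s : Finset ℕ => ‖∑ k ∈ s, f k‖ ^ 2) atTop (𝓝 (‖u‖ ^ 2)) :=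
    (Tendsto.norm hu).pow 2
  simp only [norm_sum_orth hf] at h
  exact h

theorem P_of_hasSum {f : ℕ → H} (hf : ∀ k, P k (f k) = f k) {u : H} (hu : HasSum f u) (k : ℕ) :
    P k u = f k := by
  have h1 := hu.mapL (P k)
  have h2 : HasSum (fun j => P k (f j)) (P k (f k)) :=
    hasSum_single k fun j hj => by rw [← hf j, P_P_ne (Ne.symm hj)]
  rw [h1.unique h2, hf]

theorem norm_Q_le (n : ℕ) (u : H) : ‖Q n u‖ ≤ ‖u‖ := (WH n).norm_starProjection_apply_le u

theorem summable_P_sq (u : H) : Summable fun k => ‖P k u‖ ^ 2 := by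
  refine summable_of_sum_range_le (c := ‖u‖ ^ 2) (fun _ => by positivity) fun n => ?_
  rw [← norm_sum_orth (fun k => P_P k u), sum_P]
  exact pow_le_pow_left₀ (norm_nonneg _) (norm_Q_le n u) 2

/-- completeness -/
theorem hasSum_P (u : H) : HasSum (fun k => P k u) u := by
  have h := (summable_orth (fun k => P_P k u) (summable_P_sq u)).hasSum
  have h1 := h.tendsto_sum_nat
  simp only [sum_P] at h1
  rwa [tendsto_nhds_unique h1 (Q_tendsto u)] at h

/-- Parseval -/
theorem parseval (u : H) : HasSum (fun k => ‖P k u‖ ^ 2) (‖u‖ ^ 2) :=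
  hasSum_sq_orth (fun k => P_P k u) (hasSum_P u)

theorem norm_P_le (k : ℕ) (u : H) : ‖P k u‖ ≤ ‖u‖ :=
  (sq_le_sq₀ (norm_nonneg _) (norm_nonneg _)).1
    (le_hasSum (parseval u) k fun _ _ => by positivity)

theorem ext_P {u v : H} (h : ∀ k, P k u = P k v) : u = v :=
  (hasSum_P u).unique (by simpa only [h] using hasSum_P v)

/-! ### continuous representatives -/

def invV (k : ℕ) : WH (k + 1) →L[ℂ] CS :=
  LinearMap.toContinuousLinearMap ((V k).subtype ∘ₗ
    (Submodule.equivMapOfInjective (toH : CS →ₗ[ℂ] H) toH_inj (V k)).symm.toLinearMap)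

theorem invV_spec (k : ℕ) (w : WH (k + 1)) : invV k w ∈ V k ∧ toH (invV k w) = w := by
  set e := Submodule.equivMapOfInjective (toH : CS →ₗ[ℂ] H) toH_inj (V k)
  refine ⟨(e.symm w).2, ?_⟩
  have := Submodule.coe_equivMapOfInjective_apply (toH : CS →ₗ[ℂ] H) toH_inj (V k) (e.symm w)
  exact this.symm.trans (congrArg Subtype.val (e.apply_symm_apply w))

/-- the continuous representative of `P k u` -/
def Pc (k : ℕ) : H →L[ℂ] CS := (invV k).comp ((P k).codRestrict (WH (k + 1)) (P_mem k))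

theorem Pc_memV (k : ℕ) (u : H) : Pc k u ∈ V k := (invV_spec k _).1

@[simp] theorem toH_Pc (k : ℕ) (u : H) : toH (Pc k u) = P k u := (invV_spec k _).2

/-- spherical harmonics of degree `k` -/
def E (k : ℕ) : Submodule ℂ CS := LinearMap.ker ((P k ∘L toH - toH : CS →L[ℂ] H) : CS →ₗ[ℂ] H)

theorem mem_E {k : ℕ} {v : CS} : v ∈ E k ↔ P k (toH v) = toH v := by
  unfold E
  rw [LinearMap.mem_ker]
  exact sub_eq_zero

theorem Pc_mem (k : ℕ) (u : H) : Pc k u ∈ E k := by rw [mem_E, toH_Pc, P_P]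

theorem Pc_of_mem {k : ℕ} {v : CS} (hv : v ∈ E k) : Pc k (toH v) = v :=
  toH_inj (by rw [toH_Pc, mem_E.1 hv])


theorem Pc_P (k : ℕ) (u : H) : Pc k (P k u) = Pc k u := toH_inj (by simp [P_P])

theorem E_le_V (k : ℕ) : E k ≤ V k := fun _ hv => Pc_of_mem hv ▸ Pc_memV k _

theorem E_orth {k : ℕ} {v w : CS} (hv : v ∈ E k) (hw : w ∈ W k) : ⟪toH w, toH v⟫_ℂ = 0 := by
  rw [← mem_E.1 hv, ← inner_P, P_of_memWH le_rfl (toH_memWH hw), inner_zero_left]

theorem mem_E_of {k : ℕ} {v : CS} (hv : v ∈ V k) (h : ∀ w ∈ W k, ⟪toH w, toH v⟫_ℂ = 0) :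
    v ∈ E k := by
  rw [mem_E, P_apply, Q_eq_self (toH_memWH (k := k + 1) hv), sub_eq_self]
  refine ext_inner_left ℂ fun z => ?_
  obtain ⟨w, hw, hz⟩ := Q_mem k z
  rw [← inner_Q, ← hz, inner_zero_right]
  exact h w hw

theorem R_mem_E (a : Pr 4) {k : ℕ} {v : CS} (hv : v ∈ E k) : R a v ∈ E k := by
  refine mem_E_of (R_mem a (E_le_V k hv)) fun w hw => ?_
  have := (HR_R a (W_le_V k hw)).inner (HR_R a (E_le_V k hv))
  rw [E_orth hv (R_memW a hw)] at this
  exact neg_eq_zero.1 this.symm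

theorem cmp_memW (g : E4 ≃ₗᵢ[ℝ] E4) {k : ℕ} {u : CS} (hu : u ∈ W k) : cmp g u ∈ W k := by
  cases k with
  | zero => rw [(Submodule.mem_bot ℂ).1 hu]; exact Submodule.zero_mem _
  | succ k => exact cmp_mem_V g hu

theorem cmp_symm_cmp (g : E4 ≃ₗᵢ[ℝ] E4) (u : CS) : cmp g (cmp g.symm u) = u := by
  ext x; simp [isoS_symm_isoS]

theorem cmp_mem_E (g : E4 ≃ₗᵢ[ℝ] E4) {k : ℕ} {v : CS} (hv : v ∈ E k) : cmp g v ∈ E k := by
  refine mem_E_of (cmp_mem_V g (E_le_V k hv)) fun w hw => ?_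
  rw [← cmp_symm_cmp g w, inner_cmp]
  exact E_orth hv (cmp_memW _ hw)

theorem star_memW {k : ℕ} {u : CS} (hu : u ∈ W k) : star u ∈ W k := by
  cases k with
  | zero => rw [(Submodule.mem_bot ℂ).1 hu, star_zero]; exact Submodule.zero_mem _
  | succ k => exact star_mem_V hu

theorem inner_star (u v : CS) : ⟪toH (star u), toH (star v)⟫_ℂ = ⟪toH v, toH u⟫_ℂ := by
  rw [inner_toH, inner_toH]
  refine integral_congr_ae (Eventually.of_forall fun x => ?_)
  simp [mul_comm]

theorem star_mem_E {k : ℕ} {v : CS} (hv : v ∈ E k) : star v ∈ E k := by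
  refine mem_E_of (star_mem_V (E_le_V k hv)) fun w hw => ?_
  rw [← star_star w, inner_star, ← inner_conj_symm, E_orth hv (star_memW hw), map_zero]

theorem Lap_memW {k : ℕ} {u : CS} (hu : u ∈ W k) : Lap u ∈ W k :=
  Submodule.sum_mem _ fun a _ => R_memW a (R_memW a hu)

theorem inner_Lap {j k : ℕ} {u v : CS} (hu : u ∈ V j) (hv : v ∈ V k) :
    ⟪toH u, toH (Lap v)⟫_ℂ = -∑ a, ⟪toH (R a u), toH (R a v)⟫_ℂ := by
  unfold Lap
  rw [map_sum, inner_sum, ← Finset.sum_neg_distrib]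
  refine Finset.sum_congr rfl fun a _ => ?_
  rw [(HR_R a hu).inner (HR_R a (R_mem a hv)), neg_neg]

theorem inner_Lap' {j k : ℕ} {u v : CS} (hu : u ∈ V j) (hv : v ∈ V k) :
    ⟪toH (Lap u), toH v⟫_ℂ = -∑ a, ⟪toH (R a u), toH (R a v)⟫_ℂ := by
  unfold Lap
  rw [map_sum, sum_inner, ← Finset.sum_neg_distrib]
  exact Finset.sum_congr rfl fun a _ => (HR_R a (R_mem a hu)).inner (HR_R a hv)

/-- eigenvalue equation -/
theorem Lap_E {k : ℕ} {v : CS} (hv : v ∈ E k) : Lap v = -(((k * (k + 2) : ℕ) : ℂ) • v) := by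
  have hV := E_le_V k hv
  have h1 := lap_memW hV
  have h2 : ∀ w ∈ W k, ⟪toH w, toH (Lap v + ((k * (k + 2) : ℕ) : ℂ) • v)⟫_ℂ = 0 := by
    intro w h1
    rw [map_add, map_smul, inner_add_right, inner_smul_right, E_orth hv h1,
      inner_Lap (W_le_V k h1) hV, ← inner_Lap' (W_le_V k h1) hV, E_orth hv (Lap_memW h1)]
    simp
  exact eq_neg_of_add_eq_zero_left (toH_inj (by rw [inner_self_eq_zero.1 (h2 _ h1), map_zero]))

theorem lap_Pc (k : ℕ) (u : H) : Lap (Pc k u) = -(((k * (k + 2) : ℕ) : ℂ) • Pc k u) :=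
  Lap_E (Pc_mem k u)

theorem sum_norm_R {k : ℕ} {v : CS} (hv : v ∈ E k) :
    ∑ a, ‖toH (R a v)‖ ^ 2 = (k * (k + 2) : ℝ) * ‖toH v‖ ^ 2 := by
  have h := inner_Lap (E_le_V k hv) (E_le_V k hv)
  rw [Lap_E hv, map_neg, map_smul, inner_neg_right, inner_smul_right, neg_inj] at h
  simp only [inner_self_eq_norm_sq_to_K] at h
  apply Complex.ofReal_injective
  push_cast at h ⊢
  exact h.symm

theorem norm_R_le (a : Pr 4) {k : ℕ} {v : CS} (hv : v ∈ E k) :
    ‖toH (R a v)‖ ≤ (k + 1) * ‖toH v‖ := by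
  refine (sq_le_sq₀ (norm_nonneg _) (by positivity)).1 ?_
  have h := Finset.single_le_sum (f := fun a => ‖toH (R a v)‖ ^ 2) (fun _ _ => by positivity)
    (Finset.mem_univ a)
  rw [sum_norm_R hv] at h
  refine h.trans ?_
  rw [mul_pow]
  exact mul_le_mul_of_nonneg_right (by nlinarith) (by positivity)

/-! ### products -/

theorem P_mul_zero_hi {j k l : ℕ} {u v : CS} (hu : u ∈ V j) (hv : v ∈ V k) (h : j + k < l) :
    P l (toH (u * v)) = 0 :=
  P_of_memWH h (toH_memWH (k := j + k + 1) (mul_mem_V hu hv))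

theorem P_mul_zero_lo {j k l : ℕ} {u v : CS} (hu : u ∈ V j) (hv : v ∈ E k) (h : j + l < k) :
    P l (toH (u * v)) = 0 := by
  refine ext_inner_left ℂ fun z => ?_
  rw [← inner_P, ← toH_Pc, inner_mul, inner_zero_right]
  exact E_orth hv (W_mono h (mul_mem_V (star_mem_V hu) (Pc_memV l z)))

theorem P_mul_zero {j k l : ℕ} {u v : CS} (hu : u ∈ E j) (hv : v ∈ E k)
    (h : j + k < l ∨ j + l < k ∨ k + l < j) : P l (toH (u * v)) = 0 := by
  rcases h with h | h | h
  · exact P_mul_zero_hi (E_le_V j hu) (E_le_V k hv) h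
  · exact P_mul_zero_lo (E_le_V j hu) hv h
  · rw [mul_comm]; exact P_mul_zero_lo (E_le_V k hv) hu h

end Crest.Agent.N207.J
end
end

-- ▼ part N207/J/Sph4

/-! # N207/J/Sph4 (helper72): sup bound on `V k`; commutation with `P k`; series in `C(S³)` -/

set_option autoImplicit false
set_option maxHeartbeats 400000
open MeasureTheory Metric Topology Filter
open Crest.Agent.R246.Zon797
open scoped InnerProductSpace

noncomputable section

namespace Crest.Agent.N207.J

theorem sg_univ : sg.real Set.univ = 2 * Real.pi ^ 2 := by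
  rw [Measure.toSphere_real_apply_univ, Measure.real,
    InnerProductSpace.volume_ball_of_dim_even (k := 2) (by simp)]
  rw [ENNReal.toReal_mul, ENNReal.toReal_ofReal (by positivity)]
  simp
  ring

theorem one_le_sg : 1 ≤ sg.real Set.univ := by
  rw [sg_univ]; nlinarith [Real.pi_gt_three]

theorem exists_iso (x y : S3) : ∃ g : E4 ≃ₗᵢ[ℝ] E4, isoS g x = y :=
  ⟨Submodule.reflection (ℝ ∙ ((x : E4) - y))ᗮ, Subtype.ext (Submodule.reflection_sub (by simp))⟩

theorem invV_toH {k : ℕ} {v : CS} (hv : v ∈ V k) :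
    invV k ⟨toH v, toH_memWH (k := k + 1) hv⟩ = v := toH_inj (invV_spec k _).2

/-- sup bound for polynomials of degree `≤ k` -/
theorem sup_le {k : ℕ} {v : CS} (hv : v ∈ V k) : ‖v‖ ≤ ((k : ℝ) + 1) ^ 2 * ‖toH v‖ := by
  let ev : S3 → (WH (k + 1) →L[ℂ] ℂ) := fun x => (ContinuousMap.evalCLM ℂ x).comp (invV k)
  have ev_apply : ∀ x w, ev x w = invV k w x := fun _ _ => rfl
  have h1 : ∀ x, ∀ u ∈ V k, ‖u x‖ ≤ ‖ev x‖ * ‖toH u‖ := by
    intro x u hu
    have := (ev x).le_opNorm ⟨toH u, toH_memWH (k := k + 1) hu⟩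
    rwa [ev_apply, invV_toH hu] at this
  have h2 : ∀ x y, ‖ev x‖ ≤ ‖ev y‖ := by
    intro x y
    refine ContinuousLinearMap.opNorm_le_bound _ (ev y).opNorm_nonneg fun w => ?_
    obtain ⟨g, hg⟩ := exists_iso y x
    have := h1 y _ (cmp_mem_V g (invV_spec k w).1)
    rwa [cmp_apply, hg, norm_cmp, (invV_spec k w).2] at this
  let b := stdOrthonormalBasis ℂ (WH (k + 1))
  have h3 : ∀ y, ‖ev y‖ ^ 2 = ∑ i, ‖invV k (b i) y‖ ^ 2 := by
    intro y
    rw [← (InnerProductSpace.toDual ℂ (WH (k + 1))).symm.norm_map (ev y),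
      ← b.sum_sq_norm_inner_left]
    refine Finset.sum_congr rfl fun i _ => ?_
    rw [InnerProductSpace.toDual_symm_apply, ev_apply]
  have h4 : ∀ x, ‖ev x‖ ^ 2 ≤ ((k : ℝ) + 1) ^ 4 := by
    intro x
    have i1 : ∫ _y : S3, ‖ev x‖ ^ 2 ∂sg ≤ ∫ y, ∑ i, ‖invV k (b i) y‖ ^ 2 ∂sg := by
      refine integral_mono (integrable_const _) (integrable_CSR _ (by fun_prop)) fun y => ?_
      show ‖ev x‖ ^ 2 ≤ ∑ i, ‖invV k (b i) y‖ ^ 2
      rw [← h3]
      exact pow_le_pow_left₀ (ev x).opNorm_nonneg (h2 x y) 2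
    rw [integral_finsetSum _ fun i _ => integrable_CSR _ (by fun_prop), integral_const,
      smul_eq_mul] at i1
    have i2 : ∀ i, ∫ y, ‖invV k (b i) y‖ ^ 2 ∂sg = 1 := by
      intro i
      rw [← norm_toH_sq, (invV_spec k _).2]
      have : ‖(b i : H)‖ = 1 := b.orthonormal.1 i
      rw [this, one_pow]
    simp only [i2, Finset.sum_const, Finset.card_univ, Fintype.card_fin, nsmul_eq_mul,
      mul_one] at i1
    have i3 : Module.finrank ℂ (WH (k + 1)) ≤ (k + 1) ^ 4 :=
      (Submodule.finrank_map_le _ _).trans (finrank_V k)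
    have i4 : (Module.finrank ℂ (WH (k + 1)) : ℝ) ≤ ((k : ℝ) + 1) ^ 4 := by exact_mod_cast i3
    nlinarith [one_le_sg, sq_nonneg ‖ev x‖]
  refine (ContinuousMap.norm_le _ (by positivity)).2 fun x => (h1 x v hv).trans ?_
  refine mul_le_mul_of_nonneg_right ?_ (norm_nonneg _)
  refine (sq_le_sq₀ (ev x).opNorm_nonneg (by positivity)).1 ((h4 x).trans (le_of_eq ?_))
  ring

theorem norm_Pc_le (k : ℕ) (u : H) : ‖Pc k u‖ ≤ ((k : ℝ) + 1) ^ 2 * ‖P k u‖ := by
  simpa using sup_le (Pc_memV k u)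

theorem norm_toH_le (u : CS) : ‖toH u‖ ≤ 5 * ‖u‖ := by
  refine (sq_le_sq₀ (norm_nonneg _) (by positivity)).1 ?_
  rw [norm_toH_sq]
  have i1 : ∫ x, ‖u x‖ ^ 2 ∂sg ≤ ∫ _x : S3, ‖u‖ ^ 2 ∂sg :=
    integral_mono (integrable_CSR _ (by fun_prop)) (integrable_const _) fun x =>
      pow_le_pow_left₀ (norm_nonneg _) (u.norm_coe_le_norm x) 2
  rw [integral_const, smul_eq_mul, sg_univ] at i1
  have : Real.pi ^ 2 ≤ 3.15 ^ 2 := pow_le_pow_left₀ Real.pi_pos.le Real.pi_lt_d2.le 2
  nlinarith [sq_nonneg ‖u‖]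

/-- product of two polynomials in `L²` -/
theorem norm_toH_mul_le {j k : ℕ} {u v : CS} (hu : u ∈ V j) (hv : v ∈ V k) :
    ‖toH (u * v)‖ ≤ ((min j k : ℕ) + 1 : ℝ) ^ 2 * ‖toH u‖ * ‖toH v‖ := by
  rcases le_total j k with h | h
  · rw [min_eq_left h]
    exact (norm_toH_mul u v).trans (mul_le_mul_of_nonneg_right (sup_le hu) (norm_nonneg _))
  · rw [min_eq_right h, mul_comm u, mul_right_comm]
    exact (norm_toH_mul v u).trans (mul_le_mul_of_nonneg_right (sup_le hv) (norm_nonneg _))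

/-! ### commutation -/

theorem HR.Pc {a : Pr 4} {v v' : CS} (h : HR a v v') (k : ℕ) :
    Pc k (toH v') = R a (Pc k (toH v)) := by
  apply toH_inj
  refine ext_inner_left ℂ fun z => ?_
  have he := Pc_mem k z
  have hv := Pc_mem k (toH v)
  have e1 := (HR_R a (E_le_V k he)).inner h
  have e2 := (HR_R a (E_le_V k he)).inner (HR_R a (E_le_V k hv))
  rw [toH_Pc k (toH v), ← inner_P, mem_E.1 (R_mem_E a he), e1, neg_inj, toH_Pc, inner_P,
    inner_P, mem_E.1 (R_mem_E a hv)] at e2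
  rw [toH_Pc, e2]

theorem Pc_cmp (g : E4 ≃ₗᵢ[ℝ] E4) (k : ℕ) (v : CS) :
    Pc k (toH (cmp g v)) = cmp g (Pc k (toH v)) := by
  apply toH_inj
  refine ext_inner_left ℂ fun z => ?_
  have he := Pc_mem k z
  rw [toH_Pc, ← mem_E.1 (cmp_mem_E g (Pc_mem k (toH v))), ← inner_P, ← inner_P, ← toH_Pc,
    ← cmp_symm_cmp g (Pc k z), inner_cmp, inner_cmp, toH_Pc, ← inner_P,
    mem_E.1 (cmp_mem_E _ he)]

theorem Pc_star (k : ℕ) (v : CS) : Pc k (toH (star v)) = star (Pc k (toH v)) := by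
  apply toH_inj
  refine ext_inner_left ℂ fun z => ?_
  have he := Pc_mem k z
  rw [toH_Pc, ← mem_E.1 (star_mem_E (Pc_mem k (toH v))), ← inner_P, ← inner_P, ← toH_Pc,
    ← star_star (Pc k z), inner_star, inner_star, toH_Pc, inner_P, mem_E.1 (star_mem_E he)]

theorem HR.norm_P_le {a : Pr 4} {v v' : CS} (h : HR a v v') (k : ℕ) :
    ‖P k (toH v')‖ ≤ (k + 1) * ‖P k (toH v)‖ := by
  rw [← toH_Pc, h.Pc, ← toH_Pc]
  exact norm_R_le a (Pc_mem k _)

/-- `k(k+2)|P_k v|² = ∑_a |P_k R_a v|²` for differentiable `v` -/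
theorem sum_norm_P_HR {v : CS} {v' : Pr 4 → CS} (h : ∀ a, HR a v (v' a)) (k : ℕ) :
    ∑ a, ‖P k (toH (v' a))‖ ^ 2 = (k * (k + 2) : ℝ) * ‖P k (toH v)‖ ^ 2 := by
  rw [← toH_Pc, ← sum_norm_R (Pc_mem k _)]
  exact Finset.sum_congr rfl fun a _ => by rw [← toH_Pc, (h a).Pc]

/-! ### series of harmonics in `C(S³)` -/

theorem summable_E {v : ℕ → CS} (hv : ∀ k, v k ∈ V k)
    (hs : Summable fun k : ℕ => ((k : ℝ) + 1) ^ 2 * ‖toH (v k)‖) : Summable v :=
  Summable.of_norm_bounded hs fun k => sup_le (hv k)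

theorem Pc_of_hasSum {v : ℕ → CS} (hv : ∀ k, v k ∈ E k) {u : CS} (hu : HasSum v u) (k : ℕ) :
    Pc k (toH u) = v k :=
  toH_inj (by rw [toH_Pc, P_of_hasSum (fun j => mem_E.1 (hv j)) (hu.mapL toH)])

theorem hasSum_Pc {u : CS} (hs : Summable fun k : ℕ => ((k : ℝ) + 1) ^ 2 * ‖P k (toH u)‖) :
    HasSum (fun k => Pc k (toH u)) u := by
  have h := (summable_E (fun k => Pc_memV k (toH u)) (by simpa using hs)).hasSum
  have h1 := h.mapL toH
  simp only [toH_Pc] at h1
  rwa [toH_inj (h1.unique (hasSum_P (toH u)))] at h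

theorem ext_Pc {u v : CS} (h : ∀ k, Pc k (toH u) = Pc k (toH v)) : u = v :=
  toH_inj (ext_P fun k => by rw [← toH_Pc, h, toH_Pc])

/-- termwise rotation derivative of a series -/
theorem HR.hasSum {a : Pr 4} {u u' : ℕ → CS} {v v' : CS} (hu : HasSum u v) (hu' : HasSum u' v')
    (h : ∀ i, HR a (u i) (u' i)) : HR a v v' :=
  HR.tendsto hu hu' fun _ => HR.sum fun i _ => h i

end Crest.Agent.N207.J
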