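import Crest.Agent.N207.J.As2

/-! # N207/J/As3 (helper71): product, multipliers and rotation derivatives on `CL` -/

set_option autoImplicit false
set_option maxHeartbeats 400000
open Metric Topology Filter
open Crest.Agent.R246.Zon797

noncomputable section

namespace Crest.Agent.N207.J


theorem norm_mulH_op (j k l : ℕ) : ‖mulH j k l‖ ≤ (((min k l : ℕ) : ℝ) + 1) ^ 2 :=
  ContinuousLinearMap.opNorm_le_bound₂ _ (by positivity) (norm_mulH_le j k l)

theorem mulH_smul (j k l : ℕ) (a b : ℂ) (x y : H) :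
    P j (toH ((a • Pc k x) * (b • Pc l y))) = (a * b) • mulH j k l x y := by
  rw [mulH_apply, smul_mul_smul_comm, map_smul, map_smul]

/-- the mode `j` of a product from a double series of stored values -/
theorem md_of_hasSum {G : Type} [NormedAddCommGroup G] [NormedSpace ℂ G] {m : ℕ} {o : ℂ}
    (e : G →L[ℂ] H) {z : CL G} {j : ℕ} {t : ℕ × ℕ → G} (ht : HasSum t (z j)) {u v : ℕ → CS}
    {U W' : CS} (hu : HasSum u U) (hv : HasSum v W') (su : Summable fun k => ‖u k‖)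
    (sv : Summable fun k => ‖v k‖)
    (h : ∀ q : ℕ × ℕ, (o ^ j / wn m j) • P j (e (t q)) = P j (toH (u q.1 * v q.2))) :
    Pc j (toH (U * W')) = md m o e z j := by
  have h1 := (ht.mapL ((o ^ j / wn m j) • (P j ∘L e)))
  simp only [smul_apply, ContinuousLinearMap.comp_apply, h] at h1
  have h2 := (hasSum_P_mul hu hv su sv j).unique h1
  apply toH_inj
  rw [toH_Pc, h2, md, map_smul, toH_Pc]

namespace Layer
variable {Pt F1 F2 : Type} [NormedAddCommGroup F1] [NormedSpace ℂ F1] [CompleteSpace F1]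
  [NormedAddCommGroup F2] [NormedSpace ℂ F2] [CompleteSpace F2] {C : ℝ} (Y : Layer Pt F1 F2 C)

/-- true function of a solution-class element at the point `p` -/
def syn1 (m : ℕ) (p : Pt) : CL F1 →L[ℂ] CS := syn m (Y.om p) (Y.ev1 p)
/-- true function of a source-class element at the point `p` -/
def syn2 (m : ℕ) (p : Pt) : CL F2 →L[ℂ] CS := syn m (Y.om p) (Y.ev2 p)

omit [CompleteSpace F1] [CompleteSpace F2] in
theorem norm_syn1_le {m : ℕ} (hm : 3 ≤ m) (p : Pt) (x : CL F1) : ‖Y.syn1 m p x‖ ≤ 2 * C * ‖x‖ :=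
  norm_syn_le hm (Y.om_le p) _ Y.C_pos.le (Y.ev1_le p) x


/-! ### the product -/

open Classical in
/-- entries of the product -/
def mulE (j k l : ℕ) : F1 →L[ℂ] F1 →L[ℂ] F2 :=
  if tri j k l then Y.bil (mulH j k l) (k + l - j) else 0

omit [CompleteSpace F1] [CompleteSpace F2] in
theorem tri_mul : Tri (X := fun _ => F1) (Y := fun _ => F1) (Z := fun _ => F2)
    (fun j k l => ((wt (4 : ℕ) j / (wt (4 : ℕ) k * wt (4 : ℕ) l) : ℝ) : ℂ) • Y.mulE j k l)
    (fun m => C * 2 ^ ((4 : ℕ) : ℝ) / ((m : ℝ) + 1) ^ 2) (3 * C * 2 ^ ((4 : ℕ) : ℝ)) := by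
  refine tri_weighted (fun j k l => Y.mulE j k l) Y.C_pos.le (fun j k l h x y => ?_)
    (fun j k l h x y => ?_) (by norm_num) le_rfl le_rfl (by norm_num) (by norm_num)
  · simp [mulE, h]
  · rw [mulE, if_pos h]
    refine ((Y.bil _ _).le_opNorm₂ x y).trans ?_
    have := (Y.norm_bil (mulH j k l) (k + l - j)).trans
      (mul_le_mul_of_nonneg_left (norm_mulH_op j k l) Y.C_pos.le)
    gcongr

/-- the product of two elements of level 4 -/
def mul : CL F1 →L[ℂ] CL F1 →L[ℂ] CL F2 := Y.tri_mul.bil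

omit [CompleteSpace F1] in
theorem norm_mul_apply (x y : CL F1) : ‖Y.mul x y‖ ≤ 96 * C * ‖x‖ * ‖y‖ := by
  refine (Y.tri_mul.norm_bil_apply_le x y).trans_eq ?_
  rw [Real.rpow_natCast]; ring

omit [CompleteSpace F1] in
theorem norm_mul : ‖Y.mul‖ ≤ 96 * C :=
  ContinuousLinearMap.opNorm_le_bound₂ _ (by have := Y.C_pos; positivity) Y.norm_mul_apply

omit [CompleteSpace F1] in
theorem hasSum_mul (x y : CL F1) (j : ℕ) : HasSum (fun q : ℕ × ℕ =>
    (wn 4 j / (wn 4 q.1 * wn 4 q.2)) • Y.mulE j q.1 q.2 (x q.1) (y q.2)) (Y.mul x y j) := by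
  have h := Y.tri_mul.hasSum x y j
  refine (congrArg (HasSum · _) (funext fun q => ?_)).mp h
  simp only [Complex.ofReal_div, Complex.ofReal_mul, wt_eq_wn, smul_apply]

omit [CompleteSpace F1] [CompleteSpace F2] in
theorem ev_mulE (j k l : ℕ) (f g : F1) (p : Pt) : Y.om p ^ j • Y.ev2 p (Y.mulE j k l f g) =
    Y.om p ^ (k + l) • mulH j k l (Y.ev1 p f) (Y.ev1 p g) := by
  by_cases h : tri j k l
  · rw [mulE, if_pos h, Y.ev_bil, smul_smul, ← pow_add, Nat.add_sub_cancel' h.1]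
  · simp [mulE, h, mulH_supp h]

omit [CompleteSpace F1] in
theorem syn_mul (p : Pt) (x y : CL F1) :
    Y.syn2 4 p (Y.mul x y) = Y.syn1 4 p x * Y.syn1 4 p y := by
  have ho := Y.om_le p
  refine syn_eq (by norm_num) ho _ _ fun j => md_of_hasSum _ (Y.hasSum_mul x y j)
    (hasSum_syn (by norm_num) ho _ x) (hasSum_syn (by norm_num) ho _ y)
    (summable_norm_md' (by norm_num) ho _ x) (summable_norm_md' (by norm_num) ho _ y) fun q => ?_
  rw [md, md, mulH_smul, map_smul, map_smul, smul_smul]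
  have h1 := congrArg (P j) (Y.ev_mulE j q.1 q.2 (x q.1) (y q.2) p)
  rw [map_smul, map_smul, P_mulH] at h1
  have := wn_ne 4 j
  have := wn_ne 4 q.1
  have := wn_ne 4 q.2
  calc _ = (wn 4 q.1 * wn 4 q.2)⁻¹ • (Y.om p ^ j • _) := by
        rw [smul_smul]; congr 1; field_simp
    _ = _ := by rw [h1, smul_smul]; congr 1; field_simp; ring

/-- sources as solution-class elements -/
def incl : CL F2 →L[ℂ] CL F1 := cm Y.inc

omit [CompleteSpace F1] [CompleteSpace F2] in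
theorem norm_incl : ‖Y.incl‖ ≤ C := (norm_cm_le _).trans Y.norm_inc

omit [CompleteSpace F1] [CompleteSpace F2] in
theorem md_incl (m : ℕ) (p : Pt) (f : CL F2) (k : ℕ) :
    md m (Y.om p) (Y.ev1 p) (Y.incl f) k = md m (Y.om p) (Y.ev2 p) f k := by
  rw [md, md, incl, cm_apply, Y.ev_inc]

omit [CompleteSpace F1] [CompleteSpace F2] in
theorem syn_incl {m : ℕ} (hm : 3 ≤ m) (p : Pt) (f : CL F2) :
    Y.syn1 m p (Y.incl f) = Y.syn2 m p f :=
  syn_congr hm (Y.om_le p) hm (Y.om_le p) (Y.md_incl m p f)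

/-! ### multiplication by a spherical harmonic of degree one -/

open Classical in
/-- entries of the multiplier -/
def mlE (φ : CS) (j k l : ℕ) : ℂ →L[ℂ] F1 →L[ℂ] F1 :=
  if k = 1 ∧ tri j k l then
    (ContinuousLinearMap.id ℂ ℂ).smulRight (Y.lin (mulH j 1 l (toH φ)) ((l : ℤ) - j)) else 0

omit [CompleteSpace F1] [CompleteSpace F2] in
theorem tri_ml (φ : CS) {m : ℕ} (hm : 4 ≤ m) :
    Tri (X := fun _ => ℂ) (Y := fun _ => F1) (Z := fun _ => F1)
    (fun j k l => ((wt m j / (wt m k * wt m l) : ℝ) : ℂ) • Y.mlE φ j k l)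
    (fun n => C * (5 * ‖φ‖) * 2 ^ (m : ℝ) / ((n : ℝ) + 1) ^ 2)
    (3 * (C * (5 * ‖φ‖)) * 2 ^ (m : ℝ)) := by
  have hC := Y.C_pos
  refine tri_weighted (fun j k l => Y.mlE φ j k l) (by positivity) (fun j k l h x y => ?_)
    (fun j k l h x y => ?_) (by positivity) le_rfl le_rfl (by exact_mod_cast hm)
    (by exact_mod_cast hm)
  · simp [mlE, h]
  · by_cases hk : k = 1
    · subst hk
      rw [mlE, if_pos ⟨rfl, h⟩]
      simp only [ContinuousLinearMap.smulRight_apply, ContinuousLinearMap.id_apply, smul_apply,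
        norm_smul]
      have h1 : ‖mulH j 1 l (toH φ)‖ ≤ (((min 1 l : ℕ) : ℝ) + 1) ^ 2 * (5 * ‖φ‖) :=
        ((mulH j 1 l).le_opNorm _).trans
          (mul_le_mul (norm_mulH_op j 1 l) (norm_toH_le φ) (norm_nonneg _) (by positivity))
      have h2 := ((Y.lin (mulH j 1 l (toH φ)) ((l : ℤ) - j)).le_of_opNorm_le
        ((Y.norm_lin _ _).trans (mul_le_mul_of_nonneg_left h1 hC.le)) y)
      calc _ ≤ ‖x‖ * (C * ((((min 1 l : ℕ) : ℝ) + 1) ^ 2 * (5 * ‖φ‖)) * ‖y‖) := by gcongr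
        _ = _ := by ring
    · rw [mlE, if_neg fun h => hk h.1]
      simp only [zero_apply, norm_zero]
      positivity

open Classical in
/-- multiplication by `φ ∈ E 1` at level `m ≥ 4` -/
def ml (m : ℕ) (φ : CS) : CL F1 →L[ℂ] CL F1 :=
  if hm : 4 ≤ m then (Y.tri_ml φ hm).bil (lp.single 2 1 (wn m 1)) else 0

omit [CompleteSpace F2] in
theorem norm_ml {m : ℕ} (hm : 4 ≤ m) {φ : CS} (hφ : ‖φ‖ ≤ 1) : ‖Y.ml m φ‖ ≤ 30 * 4 ^ m * C := by
  have hC := Y.C_pos
  refine ContinuousLinearMap.opNorm_le_bound _ (by positivity) fun y => ?_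
  rw [ml, dif_pos hm]
  refine ((Y.tri_ml φ hm).norm_bil_apply_le _ y).trans ?_
  rw [lp.norm_single (by simp), norm_wn, Real.rpow_natCast, show (4 : ℝ) ^ m = 2 ^ m * 2 ^ m by
    rw [← mul_pow]; norm_num]
  have : (((1 : ℕ) : ℝ) + 1) = 2 := by norm_num
  rw [this]
  calc _ = 30 * (2 ^ m * 2 ^ m) * C * ‖y‖ * ‖φ‖ := by ring
    _ ≤ _ := mul_le_of_le_one_right (by positivity) hφ

omit [CompleteSpace F2] in
theorem hasSum_ml {m : ℕ} (hm : 4 ≤ m) (φ : CS) (y : CL F1) (j : ℕ) : HasSum (fun q : ℕ × ℕ =>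
    (wn m j / (wn m q.1 * wn m q.2)) • Y.mlE φ j q.1 q.2 (wn m 1) (y q.2)) (Y.ml m φ y j) := by
  have h := (Y.tri_ml φ hm).hasSum (lp.single 2 1 (wn m 1)) y j
  rw [ml, dif_pos hm]
  refine (congrArg (HasSum · _) (funext fun q => ?_)).mp h
  simp only [Complex.ofReal_div, Complex.ofReal_mul, wt_eq_wn, smul_apply]
  by_cases hk : q.1 = 1
  · rw [hk, lp.single_apply_self]
  · simp [mlE, hk]

omit [CompleteSpace F1] [CompleteSpace F2] in
theorem ev_mlE (φ : CS) (j l : ℕ) (c : ℂ) (g : F1) (p : Pt) :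
    Y.om p ^ j • Y.ev1 p (Y.mlE φ j 1 l c g) =
      (c * Y.om p ^ l) • mulH j 1 l (toH φ) (Y.ev1 p g) := by
  by_cases h : tri j 1 l
  · have h1 : -1 ≤ (l : ℤ) - j := by have := h.1; omega
    rw [mlE, if_pos ⟨rfl, h⟩]
    simp only [ContinuousLinearMap.smulRight_apply, ContinuousLinearMap.id_apply, smul_apply,
      map_smul, Y.ev_lin _ h1, smul_smul]
    congr 1
    rw [zpow_sub₀ (Y.om_ne p), zpow_natCast, zpow_natCast]
    have := Y.om_ne p
    field_simp
  · simp [mlE, h, mulH_supp h]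

omit [CompleteSpace F2] in
theorem syn_ml {m : ℕ} (hm : 4 ≤ m) {φ : CS} (hφ : φ ∈ E 1) (p : Pt) (y : CL F1) :
    Y.syn1 m p (Y.ml m φ y) = φ * Y.syn1 m p y := by
  classical
  have ho := Y.om_le p
  have hm3 : 3 ≤ m := by omega
  refine syn_eq hm3 ho _ _ fun j => md_of_hasSum _ (Y.hasSum_ml hm φ y j)
    (hasSum_ite_eq 1 φ) (hasSum_syn hm3 ho _ y)
    (summable_of_ne_finset_zero (s := {1}) fun b hb => by simp_all)
    (summable_norm_md' hm3 ho _ y) fun q => ?_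
  obtain ⟨k, l⟩ := q
  by_cases hk : k = 1
  · subst hk
    have e : φ = (1 : ℂ) • Pc 1 (toH φ) := by rw [Pc_of_mem hφ, one_smul]
    simp only [if_true]
    conv_rhs => rw [e]
    rw [md, mulH_smul, map_smul, map_smul, smul_smul]
    have h1 := congrArg (P j) (Y.ev_mlE φ j l (wn m 1) (y l) p)
    rw [map_smul, map_smul, P_mulH] at h1
    have := wn_ne m j
    have := wn_ne m 1
    have := wn_ne m l
    calc _ = (wn m 1 * wn m l)⁻¹ • (Y.om p ^ j • _) := by
          rw [smul_smul]; congr 1; field_simp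
      _ = _ := by rw [h1, smul_smul]; congr 1; field_simp
  · simp [mlE, hk]

/-! ### rotation derivatives -/

/-- `R a` from level `m + 1` to level `m` -/
def rot (a : Pr 4) : CL F1 →L[ℂ] CL F1 := dg fun k => ((k : ℂ) + 1)⁻¹ • Y.lin (Rk a k) 0

omit [CompleteSpace F1] [CompleteSpace F2] in
theorem rot_bd (a : Pr 4) (k : ℕ) : ‖((k : ℂ) + 1)⁻¹ • Y.lin (Rk a k) 0‖ ≤ C := by
  rw [norm_smul, norm_inv, norm_k1]
  have h := (Y.norm_lin (Rk a k) 0).trans
    (mul_le_mul_of_nonneg_left (norm_Rk_le a k) Y.C_pos.le)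
  rw [inv_mul_le_iff₀ (by positivity)]
  linarith

omit [CompleteSpace F1] [CompleteSpace F2] in
theorem norm_rot (a : Pr 4) : ‖Y.rot a‖ ≤ C := norm_dg_le (Y.rot_bd a)

omit [CompleteSpace F1] [CompleteSpace F2] in
theorem md_rot (m : ℕ) (a : Pr 4) (p : Pt) (x : CL F1) (k : ℕ) :
    md m (Y.om p) (Y.ev1 p) (Y.rot a x) k = R a (md (m + 1) (Y.om p) (Y.ev1 p) x k) := by
  rw [md, md, rot, dg_apply (Y.rot_bd a), smul_apply, map_smul, map_smul, Y.ev_lin0, Pc_Rk,
    R_smul a _ (Pc_memV k _), smul_smul, wn_succ]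
  congr 1
  have := wn_ne m k
  have := k1_ne k
  field_simp

omit [CompleteSpace F1] [CompleteSpace F2] in
theorem syn_rot {m : ℕ} (hm : 3 ≤ m) (a : Pr 4) (p : Pt) (x : CL F1) :
    Y.syn1 m p (Y.rot a x) = R a (Y.syn1 (m + 1) p x) :=
  syn_eq hm (Y.om_le p) _ _ fun k => by
    rw [Y.md_rot, syn1, (HR_syn (by omega) (Y.om_le p) _ x a).Pc, Pc_syn (by omega) (Y.om_le p)]

end Layer

end Crest.Agent.N207.J
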